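import Crest.Agent.X212.Es42.Lvl
import Crest.Agent.X212.Dl42.Main
import Crest.Agent.X212.Dec47.Bas

/-!
# Row 212, ES-NB (helper42): the rescaled cross-section
-/

set_option autoImplicit false
set_option linter.unusedSectionVars false
noncomputable section
open scoped Manifold ContDiff Topology InnerProductSpace
open Finset Filter MeasureTheory

namespace Crest.Agent.X212.Es42
open An Sob92 Wz78 Cyf70 End23
open Dl42 hiding dl
open Sw (Bg F2 En3)
open Sw.En3 (sl fz gr ip nm hol gn L Crit Eqv Nd)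
open Map77 (f2 s2)

variable {κ lam ν : Type} [Fintype κ] [Fintype lam] [Fintype ν] [DecidableEq ν]
  {e : En3 κ lam ν} {v u : e.YC}

theorem ok_re (he : e.OK) {w : ℝ} {β ψ : ℝ → ℝ} {S : Set ℝ} (hw : 0 ≤ w) (sb : ContDiff ℝ ∞ β)
    (b0 : ∀ r, 0 ≤ β r) (b1 : ∀ r, 1 ≤ r → β r = 0) (hS : IsCompact S) (sψ : ContDiff ℝ ∞ ψ)
    (mψ : Monotone ψ) : (e.re w β S ψ).OK where
  cyl := let h := he.cyl
    ⟨h.B, h.G, h.tame, h.m, h.cc, h.sk, h.AJ, h.co, h.cp, h.cρ, h.cA, h.cms, h.com, h.msJ, h.msp,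
      h.omp, hw, fun j => j.elim0⟩
  vol := he.vol
  hs := he.hs
  cl := he.cl
  sζ := he.sζ
  pζ := he.pζ
  clζ := he.clζ
  sf := he.sf
  bf := he.bf
  per v v' h k := he.per ⟨v.a, v.Φ⟩ ⟨v'.a, v'.Φ⟩ ⟨h.sa, h.sΦ, h.pa, h.pΦ⟩ k
  sp := let ⟨n, u, h1, h2⟩ := he.sp; ⟨n, u, h1, fun a h => h2 a ⟨h.sm, h.pr, h.cl⟩⟩
  sb := sb
  b0 := b0
  b1 := b1
  S := hS
  sψ := sψ
  mψ := mψ

theorem ok_lf (he : e.OK) : (lf e).OK := ok_re he zero_le_two contDiff_const (fun _ => le_rfl)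
  (fun _ _ => rfl) isCompact_empty contDiff_const monotone_const

theorem ay_tv (h : Ay v) : Ay (tv v) := ⟨h.sa, fun y => SA.smul contMDiffAt_const (h.sΦ y), h.pa,
  fun y => (map_smul _ _ _).trans (congrArg (dl e • ·) (h.pΦ y))⟩

theorem fy_vr (h : Ay v) (k : Ay u) : FY (v.vr u) fun _ => u := by
  have c : ∀ {N : Type} [NormedAddCommGroup N] [NormedSpace ℝ N] {f g : e.Y.M → N}, Sm e.Y.I f →
      Sm e.Y.I g → Fam e.Y.I (fun r y => f y + r • g y) fun _ => g := fun hf hg =>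
    ⟨(sm_fst hf).add (fam_sc hg).sm, fun s y => ((fam_sc hg).dr s y).const_add _⟩
  refine ⟨fun i => c (h.sa i) (k.sa i), c h.sΦ k.sΦ, fun r => ⟨fun i => (c (h.sa i) (k.sa i)).sm.sl r,
    (c h.sΦ k.sΦ).sm.sl r, fun i y => ?_, fun y => ?_⟩⟩
  · simp only [En3.YC.vr, ← h.pa i y, ← k.pa i y, smul_eq_mul, mul_add, sum_add_distrib, mul_sum,
      mul_left_comm r]
  · simp only [En3.YC.vr, map_add, map_smul, h.pΦ, k.pΦ]

theorem tv_vr (r : ℝ) : tv (v.vr u r) = (tv v).vr (tv u) r := by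
  simp only [tv, En3.YC.vr, smul_add, smul_comm r]

theorem dl_sq (hw : 0 ≤ e.w) : dl e * dl e = e.w / 2 := Real.mul_self_sqrt (by positivity)

theorem dl_ne (hw : 0 < e.w) : dl e ≠ 0 := (Real.sqrt_pos.2 (half_pos hw)).ne'

theorem lift_congr {k j : ℕ} {V W : Type} [NormedAddCommGroup V] [InnerProductSpace ℝ V]
    [NormedAddCommGroup W] [InnerProductSpace ℝ W] (F : Pre e.Y.I e.Y.M κ)
    {p : e.Y.M → V →L[ℝ] V} {q : e.Y.M → W →L[ℝ] W} {T T' : (e.Y.M → V) → e.Y.M → W}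
    (h : ∀ u ∈ Sec e.Y.I p, T u = T' u) : F.lift k j p q T = F.lift k j p q T' := by
  have : (fun A : F.H k p →L[ℝ] F.H j q => F.RepT F A T) = fun A => F.RepT F A T' :=
    funext fun A => propext (forall_congr' fun u => by rw [h u.1 u.2])
  exact congrArg (fun P : (F.H k p →L[ℝ] F.H j q) → Prop =>
    @dite _ (∃ A, P A) (Classical.propDecidable _) (fun h => h.choose) fun _ => 0) this

theorem ay_tg {s : e.Y.M → VV κ ν} (h : s ∈ Sec e.Y.I (pV e)) : Ay (tg e s) :=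
  ⟨fun _ y => SA.comp (SA.clm (f2 _ _) (h.1 y)) _, fun y => SA.smul contMDiffAt_const
    (SA.clm (s2 _ _) (h.1 y)), fun k y => by
      have := congrArg (fun z : VV κ ν => f2 _ _ z (some k)) (h.2.2 y)
      simpa [pV, Bg.p1, Fintype.sum_option, En3.cyl, Nd18.YD.B, cP, tg] using this,
    fun y => (map_smul _ _ _).trans (congrArg (_ • ·) ((Map77.s2_sm2 _ _ _).symm.trans
      (congrArg (s2 _ _) (h.2.2 y))))⟩

variable (he : e.OK)
include he

theorem D0_tv (h : Ay v) (y : e.Y.M) : D0 (lf e) (tv v).Φ y = dl e • D0 e v.Φ y := by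
  simp only [D0, dop, tv, fun k => nab_csmul (e := e.D.F.e) (A := e.A) k (dl e) (h.sΦ y),
    map_smul, smul_neg, smul_add, smul_sum]
  rfl

theorem gr_tv_a (h : Ay v) (k : κ) (y : e.Y.M) : (gr (tv v)).a k y = (gr v).a k y := by
  rw [gr_a (ok_lf he) (ay_tv h), gr_a he h]
  simp only [Ga, qq, tv, map_smul, real_inner_smul_left, real_inner_smul_right, ← mul_assoc (dl e),
    dl_sq he.cyl.w]
  change 2 * g0 e k y + sd e v.a k y / 2 - 2 / 4 * (e.w / 2 * ⟪e.m.J (τ e k y (v.Φ y)), v.Φ y⟫_ℝ) +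
    2 * deriv e.f (hol v) * e.ζ y (none, some k) = _
  ring

theorem gr_tv_Φ (h : Ay v) (y : e.Y.M) :
    (gr (tv v)).Φ y = dl e • ((gr v).Φ y + e.b (nm v) • v.Φ y) := by
  simp only [gr_Φ (ok_lf he) (ay_tv h), gr_Φ he h, sub_add_cancel, Pi.zero_apply, zero_smul,
    sub_zero, Dl42.GP, D0_tv he h, smul_sub, smul_sum]
  simp only [tv, map_smul, smul_comm (dl e)]
  rfl

theorem L_tv (h : Ay v) : L (tv v) = L v + e.w / 2 * Dl42.Bi e (nm v) := by
  have h1 : ∀ y, Dl42.dens (tv v) y = Dl42.dens v y := fun y => by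
    simp only [Dl42.dens, D0_tv he h]
    simp only [qq, tv, map_smul, real_inner_smul_left, real_inner_smul_right, ← mul_assoc (dl e),
      dl_sq he.cyl.w, mul_left_comm _ (e.w / 2), ← mul_sum]
    change 4 * ∑ k, g0 e k y * v.a k y + 1 / 2 * ∑ k, sd e v.a k y * v.a k y + _ -
      e.w / 2 * (2 / 2 * ∑ k, v.a k y * ⟪e.m.J (τ e k y (v.Φ y)), v.Φ y⟫_ℝ) = _
    ring
  rw [L_eq (ok_lf he) (ay_tv h), L_eq he h]
  simp only [Dl42.Lt, h1]
  simp [Dl42.dens, Dl42.Bi, nm, hol, tv]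
  ring

theorem gr_tv (h : Ay v) (h1 : 1 ≤ nm v) (y : e.Y.M) : (gr (tv v)).Φ y = dl e • (gr v).Φ y := by
  rw [gr_tv_Φ he h, he.b1 _ h1, zero_smul, add_zero]

theorem ev_tv (h : Ay v) (k : Ay u) (h1 : 1 < nm v) (y : e.Y.M) :
    (fun r => (gr ((tv v).vr (tv u) r)).Φ y) =ᶠ[𝓝 0] fun r => dl e • (gr (v.vr u r)).Φ y := by
  have c := ((fy_vr h k).nm.sm.int e.D.F.toPre).continuous.tendsto 0
  filter_upwards [c.eventually (lt_mem_nhds (h1.trans_eq (by simp [nm, En3.YC.vr])))] with r hr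
  rw [← tv_vr, gr_tv he ((fy_vr h k).ay r) hr.le]

theorem fun_tv (h : Ay v) (k : Ay u) (i : κ) (y : e.Y.M) :
    (fun r => (gr ((tv v).vr (tv u) r)).a i y) = fun r => (gr (v.vr u r)).a i y :=
  funext fun r => by rw [← tv_vr, gr_tv_a he ((fy_vr h k).ay r)]

theorem abs_Bi {B : ℝ} (hB : ∀ r, e.b r ≤ B) {n : ℝ} (hn : 0 ≤ n) : |Dl42.Bi e n| ≤ B := by
  have i := fun a b => he.sb.continuous.intervalIntegrable (μ := volume) a b
  have k : ∀ m ∈ Set.Icc (0 : ℝ) 1, ‖Dl42.Bi e m‖ ≤ B := fun m hm =>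
    (intervalIntegral.norm_integral_le_of_norm_le_const (C := B) fun s _ => by
      rw [Real.norm_of_nonneg (he.b0 s)]; exact hB s).trans (by
      rw [sub_zero, abs_of_nonneg hm.1]
      exact mul_le_of_le_one_right ((he.b0 0).trans (hB 0)) hm.2)
  rcases le_total n 1 with h | h
  · exact k n ⟨hn, h⟩
  · have := intervalIntegral.integral_add_adjacent_intervals (i 0 1) (i 1 n)
    rw [intervalIntegral.integral_congr (a := 1) (b := n) (g := fun _ => 0) fun s hs => by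
      simp [he.b1 s (by rw [Set.uIcc_of_le h] at hs; exact hs.1)]] at this
    rw [Dl42.Bi, ← this, intervalIntegral.integral_zero, add_zero]
    exact k 1 ⟨zero_le_one, le_rfl⟩

theorem inv_of (h : (lf e).Inv) : e.Inv := fun v v' hv k => by
  have h1 := L_tv he (ay_of hv)
  have h2 := L_tv he (ay_of (Pb50.Eqv.adm he hv k))
  rw [Pb50.Eqv.nm he k, h (tv v) (tv v') (ay_tv (ay_of hv)).adm, h1] at h2
  · exact (add_right_cancel h2).symm
  obtain ⟨g, hg, k⟩ := k
  refine ⟨g, hg, Sw.Cfg.ext (by exact (congrArg Sw.Cfg.a k :)) (funext fun x => ?_)⟩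
  refine (congrArg (fun c : e.ZC => dl e • c.Φ x) k).trans ?_
  simp only [Bg.act, cs, fz, tv, smul_add, map_smul, smul_comm (dl e)]
  rfl

variable (hw : 0 < e.w) (hv : e.cyl.Adm (fz v))
include hw hv

theorem crit_tv (h1 : 1 ≤ nm v) : (Crit v ↔ Crit (tv v)) ∧ gn v = gn (tv v) := by
  have A := ay_of hv
  refine ⟨?_, integral_congr_ae (.of_forall fun y => ?_)⟩
  · simp only [Crit, hv, (ay_tv A).adm, gr_tv_a he A, gr_tv he A h1, smul_eq_zero, dl_ne hw, false_or]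
  · simp only [gr_tv_a he A, gr_tv he A h1, real_inner_smul_left, real_inner_smul_right,
      ← mul_assoc (dl e), dl_sq hw.le]
    ring

theorem nd_tv (h1 : 1 < nm v) (h : Nd (tv v)) : Nd v := fun u hu k1 k2 => by
  have A := ay_of hv
  have U := ay_of hu
  obtain ⟨χ, s, e1, e2⟩ := h (tv u) (ay_tv U).adm (fun k y => fun_tv he A U k y ▸ k1 k y) fun y =>
    (((k2 y).const_smul (dl e)).congr_deriv (smul_zero _)).congr_of_eventuallyEq (ev_tv he A U h1 y)
  refine ⟨χ, s, e1, fun y => smul_right_injective _ (dl_ne hw) ((e2 y).trans ?_)⟩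
  simp only [tv, map_smul, smul_comm (dl e)]

theorem aH_tv (h1 : 1 < nm v) : aH v = aL (tv v) := by
  refine lift_congr _ fun s h => funext fun y => congrArg (· - _) ?_
  have A := ay_of hv
  have U := ay_tg h
  have d1 : dl (lf e) = 1 := by simp [dl]
  have e1 : tg (lf e) s = tv (tg e s) := by
    simp only [tg, tv, d1, inv_one, one_smul, smul_inv_smul₀ (dl_ne hw)]
  have e2 : DifferentiableAt ℝ (fun r => (gr (v.vr (tg e s) r)).Φ y) 0 := (((fy_vr A U).sΦ he).comp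
    (contMDiff_const (c := y).prodMk contMDiff_id)).contDiff.differentiable (by simp) 0
  simp only [hs, e1, fun_tv he A U, (ev_tv he A U h1 y).deriv_eq, d1, one_smul, one_mul,
    deriv_fun_const_smul _ e2, smul_add]
  simp only [tv, map_smul, real_inner_smul_left, smul_comm (dl e)]
  rfl

omit he hw hv in
/-- **ES-NB** -/
theorem nbStmt : NbStmt κ lam ν := fun e he h0 => by
  obtain ⟨C0, h1⟩ := he.bf 0
  obtain ⟨C1, h2⟩ := he.bf 1
  obtain ⟨Z, h3⟩ := isCompact_univ.exists_bound_of_continuousOn he.sζ.continuous.continuousOn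
  have : IsFiniteMeasure e.D.F.μ := ⟨isCompact_univ.measure_lt_top⟩
  have p := measureReal_nonneg (μ := e.D.F.μ) (s := Set.univ)
  rw [iteratedDeriv_zero] at h1
  rw [iteratedDeriv_one] at h2
  have p0 := (abs_nonneg _).trans (h1 0)
  have p1 := (abs_nonneg _).trans (h2 0)
  refine ⟨ok_lf he, C0 + C1 + |Z| + e.D.F.μ.real Set.univ, fun c hc w S ψ hw hS sψ mψ => ?_⟩
  have H : (lv e c w S ψ).OK := ok_re he hw.le (contDiff_const.mul cd_prf)
    (fun r => mul_nonneg hc (prf_mem r).1) (fun r h => by rw [prf_one h, mul_zero]) hS sψ mψ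
  have := abs_nonneg Z
  refine ⟨H, inv_of H, fun w1 w2 => ⟨hw, w1, fun r => ?_, fun r => ⟨by linarith [h1 r],
    by linarith [h2 r]⟩, fun y => by linarith [h3 y trivial, le_abs_self Z], ?_, fun v _ => ?_⟩,
    fun v hv => ⟨?_, crit_tv H hw hv, fun h => ⟨nd_tv H hw hv h, aH_tv H hw hv h⟩⟩⟩
  · have := mul_le_mul_of_nonneg_left (pow_le_pow_left₀ (prf_mem r).1 (prf_mem r).2 2)
      (mul_nonneg hw.le (sq_nonneg c))
    change w * (c * prf r) ^ 2 ≤ 1
    linarith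
  · exact (ofReal_measureReal (measure_ne_top _ _)).ge.trans (ENNReal.ofReal_le_ofReal (by linarith))
  · simp only [h0, Pi.zero_apply, PiLp.zero_apply, zero_mul, sum_const_zero, integral_zero, abs_zero]
    exact mul_nonneg (by linarith) (add_nonneg zero_le_one (nrm_nonneg _ _))
  · have := abs_Bi H (B := c * 3) (fun r => mul_le_mul_of_nonneg_left (prf_mem r).2 hc)
      (n := nm v) (integral_nonneg fun _ => sq_nonneg _)
    rw [L_tv H (ay_of hv), sub_add_cancel_left, abs_neg, abs_mul, abs_of_pos (half_pos hw)]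
    nlinarith [mul_le_mul_of_nonneg_left this hw.le, mul_nonneg hw.le hc]

end Crest.Agent.X212.Es42
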