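import Crest.Agent.X212.Es42.Nb

/-!
# Row 212, ES-RS (helper42): representatives modulo the identity component
-/

set_option autoImplicit false
set_option linter.unusedSectionVars false
noncomputable section
open scoped Manifold ContDiff Topology InnerProductSpace
open Finset Filter MeasureTheory

namespace Crest.Agent.X212.Es42
open An Sob92 Wz78 Cyf70 End23 Dec47
open Dl42 (Ay ay_of ii sm_ζ)
open Sw (Bg F2 En3 Gau)
open Sw.En3 (sl fz gr ip nm hol gn L Crit Eqv Nd Eq0 Gd Rs)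
open Pb50 (th LG th_mul th_star th_one star_mul_one)
open Eqv71 (cs_mul cs_one)

variable {κ lam ν : Type} [Fintype κ] [Fintype lam] [Fintype ν] [DecidableEq ν]
  {e : En3 κ lam ν} {v v' : e.YC} {g u : e.Y.M → ℂ}

theorem eq_ay (h : fz v' = e.cyl.act (fun x => g x.1) (fz v)) : v' = ay g v :=
  congrArg (sl · 0) h

theorem gau_zpow (hu : Gau e.Y.I u) (n : ℤ) : Gau e.Y.I (fun y => u y ^ n) ∧
    ∀ k y, th e.D.F.toPre (fun y => u y ^ n) k y = n * th e.D.F.toPre u k y := by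
  have h0 : ∀ y, u y ≠ 0 := fun y h => by simpa [h] using hu.2 y
  induction n with
  | zero => simpa only [zpow_zero, th_one, Int.cast_zero, zero_mul, implies_true, and_true] using
      ⟨contMDiff_const, fun _ => norm_one⟩
  | succ n ih =>
    simp only [zpow_add_one₀ (h0 _)]
    exact ⟨gau_mul ih.1 hu, fun k y => by
      rw [th_mul _ (.of_gau ih.1 y) (.of_gau hu y), ih.2]; push_cast; ring⟩
  | pred n ih =>
    simp only [zpow_sub_one₀ (h0 _), fun y => (eq_inv_of_mul_eq_one_left (star_mul_one (hu.2 y))).symm]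
    exact ⟨gau_mul ih.1 (gau_star hu), fun k y => by
      rw [th_mul _ (.of_gau ih.1 y) (.of_gau (gau_star hu) y), ih.2, th_star _ (hu.1 y)]
      push_cast; ring⟩

variable (he : e.OK)
include he

theorem ay_star (hg : Gau e.Y.I g) (v : e.YC) : ay (fun y => star (g y)) (ay g v) = v := by
  rw [ay_ay he hg (gau_star hg)]
  simp only [fun y => star_mul_one (hg.2 y), ay_one]

theorem norm_ay (hg : Gau e.Y.I g) (v : e.YC) (y : e.Y.M) : ‖(ay g v).Φ y‖ = ‖v.Φ y‖ :=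
  Pb50.norm_cs he.cyl.m.Jsq he.cyl.m.Jsk (hg.2 y) _

theorem hol_ay (hv : e.cyl.Adm (fz v)) (hg : Gau e.Y.I g) : hol (ay g v) = hol v - per e g := by
  have i : ∀ {a : κ → e.Y.M → ℝ}, (∀ k, Sm e.Y.I (a k)) → Integrable
      (fun y => 4 * ∑ k, e.ζ y (none, some k) * a k y) e.D.F.μ := fun h => ii _ fun y =>
    SA.mul contMDiffAt_const (SA.sum _ fun k _ => SA.mul (sm_ζ he _ y) (h k y))
  refine .trans ?_ (integral_sub (i (ay_of hv).sa) (i fun k y => Pb50.sa_th e.D.F.toPre (hg.1 y) k))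
  simp only [hol, ay_a hg.1, mul_sub, sum_sub_distrib]
  rfl

theorem per_ei {χ : e.Y.M → ℝ} (h : Sm e.Y.I χ) : per e (ei χ) = 0 := by
  change ∫ y, 4 * ∑ k, e.ζ y (none, some k) * th e.D.F.toPre (ei χ) k y ∂e.D.F.μ = 0
  simp only [fun k y => th_ei e.D.F.toPre (h y) k, integral_const_mul, he.clζ χ h, mul_zero]

omit he in
theorem per_zpow (hu : Gau e.Y.I u) (n : ℤ) : per e (fun y => u y ^ n) = n * per e u := by
  change ∫ y, 4 * ∑ k, e.ζ y (none, some k) * th e.D.F.toPre (fun y => u y ^ n) k y ∂e.D.F.μ =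
    n * ∫ y, 4 * ∑ k, e.ζ y (none, some k) * th e.D.F.toPre u k y ∂e.D.F.μ
  simp only [(gau_zpow hu n).2, mul_left_comm _ (n : ℝ), ← mul_sum, integral_const_mul]

/-- nondegeneracy is gauge invariant -/
theorem nd_ay (hv : e.cyl.Adm (fz v)) (hg : Gau e.Y.I g) (h : Nd v) : Nd (ay g v) :=
  fun w hw k1 k2 => by
  have J := cs_mul (J := e.m.J) he.cyl.m.Jsq
  have o := fun y => star_mul_one (hg.2 y)
  have W := ay_of (adm_ay he hw (gau_star hg))
  let w' : e.YC := ⟨w.a, fun y => cs e.m.J (star (g y)) (w.Φ y)⟩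
  have W' : Ay w' := ⟨(ay_of hw).sa, W.sΦ, (ay_of hw).pa, W.pΦ⟩
  have e0 : ∀ y, cs e.m.J (g y) (w'.Φ y) = w.Φ y := fun y => by
    simp only [w', J, mul_comm (g y), o, cs_one]
  have e1 : ∀ r, (ay g v).vr w r = ay g (v.vr w' r) := fun r => by
    ext1
    · funext k y
      simp only [En3.YC.vr, ay_a hg.1, w']
      ring
    · funext y
      simp only [En3.YC.vr, ay_Φ, ← e0, ← Pb50.cB_apply, map_add, map_smul]
  have e2 := fun r => gr_ay he ((fy_vr (ay_of hv) W').ay r).adm hg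
  simp only [e1, fun r => (e2 r).1, fun r => (e2 r).2] at k1 k2
  obtain ⟨χ, s, h1, h2⟩ := h w' W'.adm k1 fun y => by
    simpa only [Function.comp_def, Pb50.cB_apply, J, o, cs_one, map_zero] using
      (Pb50.cB e.m.J (star (g y))).hasFDerivAt.comp_hasDerivAt 0 (k2 y)
  refine ⟨χ, s, h1, fun y => ?_⟩
  rw [← e0, h2, ay_Φ, Pb50.cs_comm rfl, ← Pb50.cB_apply, map_smul]
  rfl

theorem gd_ay (h : Gd v) (hg : Gau e.Y.I g) : Gd (ay g v) :=
  have k := h.inv v _ h.crit.1 (eqv_ay hg v)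
  ⟨Pb50.Eqv.crit he h.crit (eqv_ay hg v), nd_ay he h.crit.1 hg h.nd, h.irr.imp fun y hy =>
    norm_ne_zero_iff.1 ((norm_ay he hg v y).trans_ne (norm_ne_zero_iff.2 hy)), h.inv, k ▸ h.S,
    k ▸ h.flat⟩

omit he in
theorem near_int {p : ℝ} (hp : p ≠ 0) (C : ℝ) : ∃ K : ℕ, ∀ (a : ℝ) (n : ℤ), |a - n * p| ≤ C →
    n - round (a / p) ∈ Icc (-K : ℤ) K := by
  obtain ⟨K, hK⟩ := exists_nat_ge (C / |p| + 1)
  refine ⟨K, fun a n h => mem_Icc.2 (abs_le.1 ?_)⟩
  have h1 : |a / p - n| ≤ C / |p| := by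
    rw [le_div_iff₀ (abs_pos.2 hp), ← abs_mul, sub_mul, div_mul_cancel₀ _ hp]; exact h
  have h2 := abs_sub_le (n : ℝ) (a / p) (round (a / p))
  rw [abs_sub_comm (n : ℝ) (a / p)] at h2
  exact_mod_cast (show |(n : ℝ) - round (a / p)| ≤ K by linarith [abs_sub_round (a / p)])

omit he in
/-- **ES-RS** -/
theorem rsStmt : RsStmt κ lam ν := fun e g u G hu hp => by
  have he := G.ok
  have z := fun n => (gau_zpow hu.1 n).1
  have c : ∀ i, Crit (g.x i) := fun i => G.crit (.inl i)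
  have hh : ∀ (n : ℤ) i, hol (ay (fun y => u y ^ n) (g.x i)) = hol (g.x i) - n * per e u :=
    fun n i => by rw [hol_ay he (c i).1 (z n), per_zpow hu.1]
  have key : ∀ C, ∃ T : Finset (g.ι × ℤ), ∀ r, ∃ f : g.ι × ℤ → e.YC, {v ∈ {v | ∃ (n : ℤ) (i : g.ι),
      v = ac (fun y => u y ^ n) (g.x i)} | |hol v - r| ≤ C} ⊆ f '' T := fun C => by
    rcases hp with rfl | hp
    · refine ⟨univ ×ˢ {0}, fun r => ⟨fun p => ay (fun _ => 1) (g.x p.1), ?_⟩⟩
      rintro _ ⟨⟨n, i, rfl⟩, -⟩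
      exact ⟨(i, 0), by simp, congrArg (ay · _) (funext fun _ => (one_zpow n).symm)⟩
    · obtain ⟨K, hK⟩ := near_int hp C
      refine ⟨univ ×ˢ Icc (-K : ℤ) K, fun r => ⟨fun p => ay (fun y => u y ^ (p.2 +
        round ((hol (g.x p.1) - r) / per e u))) (g.x p.1), ?_⟩⟩
      rintro _ ⟨⟨n, i, rfl⟩, h⟩
      exact ⟨(i, n - round ((hol (g.x i) - r) / per e u)), mem_coe.2 (mem_product.2 ⟨mem_univ _,
        hK (hol (g.x i) - r) n (by rwa [sub_right_comm, ← hh])⟩), by simp only [sub_add_cancel]; rfl⟩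
  refine ⟨?_, fun v hv hi => ?_, ?_, fun C => ?_, ?_⟩
  · rintro _ ⟨n, i, rfl⟩
    exact gd_ay he ⟨c i, G.nd (.inl i), G.irr i, G.inv ⟨.inl i⟩, G.S (.inl i), G.flat (.inl i)⟩ (z n)
  · obtain ⟨o, w, hw, h⟩ := G.all v hv
    obtain rfl := eq_ay h
    obtain ⟨n, χ, s, k⟩ := hu.2 w hw
    rcases o with i | j
    · refine ⟨_, ⟨n, i, rfl⟩, -χ, s.neg, .trans (congrArg fz ?_) (fz_ay (gau_ei s.neg).1 _)⟩
      rw [ay_ay he hw (gau_ei s.neg)]
      refine congrArg (ay · (g.x i)) (show (fun y => u y ^ n) = _ from funext fun y => ?_)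
      rw [k, ei, mul_left_comm, ← Complex.exp_add]
      simp
    · obtain ⟨y, hy⟩ := hi
      exact (hy (norm_eq_zero.1 ((norm_ay he hw _ y).trans (norm_eq_zero.2 (G.red j y))))).elim
  · rintro _ ⟨n, i, rfl⟩ _ ⟨m, j, rfl⟩ ⟨χ, s, h⟩
    have h1 : ay (fun y => u y ^ m) (g.x j) = ay (ei χ) (ay (fun y => u y ^ n) (g.x i)) :=
      eq_ay h
    have h2 := congrArg (ay fun y => star (u y ^ m)) h1
    rw [ay_star he (z m), ay_ay he (z n) (gau_ei s),
      ay_ay he (gau_mul (gau_ei s) (z n)) (gau_star (z m))] at h2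
    obtain rfl : i = j := Sum.inl_injective (G.inj (.inl i) (.inl j)
      (h2 ▸ eqv_ay (gau_mul (gau_star (z m)) (gau_mul (gau_ei s) (z n))) (g.x i) :))
    rcases hp with rfl | hp
    · simp only [Pi.one_apply, one_zpow]
    · have h3 := congrArg hol h1
      rw [hol_ay he (adm_ay he (c i).1 (z n)) (gau_ei s), per_ei he s, sub_zero, hh, hh,
        sub_right_inj, mul_left_inj' hp, Int.cast_inj] at h3
      rw [h3]
  · obtain ⟨T, h⟩ := key C
    obtain ⟨f, h⟩ := h 0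
    simp only [sub_zero] at h
    exact (T.finite_toSet.image f).subset h
  · obtain ⟨T, h⟩ := key 1
    refine ⟨(T : Set (g.ι × ℤ)).ncard, fun r => ?_⟩
    obtain ⟨f, h⟩ := h r
    exact (Set.ncard_le_ncard h (T.finite_toSet.image f)).trans (Set.ncard_image_le T.finite_toSet)

end Crest.Agent.X212.Es42
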