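import Crest.Agent.X212.Es42.Nb
import Crest.Agent.X212.Wp42.Lev

/-!
# Row 212, ES-PSC (helper42): positive scalar curvature
-/

set_option autoImplicit false
set_option linter.unusedSectionVars false
noncomputable section
open scoped Manifold ContDiff Topology InnerProductSpace
open Finset Filter MeasureTheory

namespace Crest.Agent.X212.Es42
open An Sob92 Wz78 Cyf70 End23 Mp86.En
open Sw (Bg F2 En3)
open Sw.En3 (sl fz gr ip nm hol gn L Crit Eqv)
open Sw88 (sc)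

variable {κ lam ν : Type} [Fintype κ] [Fintype lam] [Fintype ν] [DecidableEq ν]
  {e : En3 κ lam ν} {v : e.YC}

/-- the vanishing theorem -/
theorem psc_core (he : e.OK) (hv : e.cyl.Adm (fz v))
    (hD : ∀ y, e.m.ρ none y (e.cyl.eD (fz v) (y, 0)) = 0) {ε X δ : ℝ} (hδ : 0 < δ)
    (hm : ∀ y, ‖e.h y‖ ≤ ε) (hs : ∀ y, ε ^ 2 + X + δ ≤ sc e.cyl (y, 0) / 4)
    (hX : ∀ y, -(X * ‖v.Φ y‖ ^ 2) ≤
      4 * ⟪e.cyl.fc (fz v) (y, 0), e.cyl.qd (y, 0) (v.Φ y) (v.Φ y)⟫_ℝ) : v.Φ = 0 := by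
  have c := (cont_Φ hv).norm.pow 2
  have := openPos e.D.F.toPre
  have h := Wp42.Nul.le (Wp42.swz he hv) ((itg c).const_mul δ) (integrable_zero _ _ _) fun y => by
    have h1 : Wp42.dr v y + e.m.ρ none y (e.h y (v.Φ y)) = 0 :=
      norm_eq_zero.1 ((Wp42.norm_eD he).symm.trans (norm_eq_zero.2 (hD y)))
    have h2 := pow_le_pow_left₀ (norm_nonneg _) ((norm_ρ he (y := y) _).trans
      ((e.h y).le_of_opNorm_le (hm y) (v.Φ y))) 2
    rw [eq_neg_of_add_eq_zero_left h1, norm_neg]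
    have h3 := mul_le_mul_of_nonneg_right (hs y) (sq_nonneg ‖v.Φ y‖)
    have h4 := sum_nonneg fun i (_ : i ∈ univ) => sq_nonneg ‖nb (fz v) i (y, 0)‖
    simp only [Pi.pow_apply, Pi.zero_apply]
    linarith [hX y]
  simp only [integral_const_mul, Pi.zero_apply, integral_zero] at h
  have h5 := (integral_eq_zero_iff_of_nonneg (fun _ => sq_nonneg _) (itg c)).1
    (le_antisymm (nonpos_of_mul_nonpos_right h hδ) (integral_nonneg fun _ => sq_nonneg _))
  funext y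
  simpa using congrFun ((c.ae_eq_iff_eq _ continuous_zero).1 h5) y

/-- **ES-PSC** -/
theorem pscStmt : PscStmt κ lam ν := fun e he hp h0 => by
  obtain ⟨σ, h1, h2⟩ := isCompact_univ.exists_forall_le' (f := fun y => sc e.cyl (y, 0))
    (cs0 fun x => (lc_gam _).sScal (frm _) x).continuousOn fun y _ => hp y
  obtain ⟨Z, h3⟩ := isCompact_univ.exists_bound_of_continuousOn he.sζ.continuous.continuousOn
  have p : 0 < 8 * (|Z| + 1) := by positivity
  have p0 := lt_min one_pos (div_pos h1 p)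
  have p1 := min_le_left 1 (σ / (8 * (|Z| + 1)))
  have p2 := (le_div_iff₀ p).1 (min_le_right 1 (σ / (8 * (|Z| + 1))))
  refine ⟨_, p0, fun f h H hh hf => ?_⟩
  generalize min 1 (σ / (8 * (|Z| + 1))) = ε at p0 p1 p2 hh hf
  have hs : ∀ y, ε ^ 2 + ε * |Z| + σ / 8 ≤ sc e.cyl (y, 0) / 4 := fun y => by
    nlinarith [h2 y trivial]
  have p3 := mul_nonneg p0.le (abs_nonneg Z)
  refine ⟨fun v hv => psc_core (ok_lf H) hv.1 (fun y => ?_) (div_pos h1 Nat.ofNat_pos) hh hs fun y => ?_, ?_⟩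
  · simpa using Wp42.crit_eD (ok_lf H) hv y
  · have k1 := Sw88.inner_fc_qd_ge (ok_lf H).cyl (c := fz v) (x := (y, 0)) (hv.1.pΦ (y, 0))
    have k2 : ‖(lf (wh e f h)).cyl.eC (fz v) (y, 0) + (lf (wh e f h)).cyl.om (y, 0)‖ ≤ ε * |Z| := by
      rw [Wp42.crit_eC (ok_lf H) hv, show (lf (wh e f h)).cyl.om (y, 0) = 0 from congrFun h0 y,
        add_zero, norm_neg, norm_smul]
      exact mul_le_mul (hf _) ((h3 y trivial).trans (le_abs_self Z)) (norm_nonneg _) p0.le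
    have k3 := mul_le_mul_of_nonneg_right k2 (sq_nonneg ‖v.Φ y‖)
    have k4 : 0 ≤ (lf (wh e f h)).cyl.w * ‖(fz v).Φ (y, 0)‖ ^ 4 / 4 := by
      have := (ok_lf H).cyl.w
      positivity
    exact (neg_le_neg k3).trans ((le_add_of_nonneg_left k4).trans k1)
  · rintro θ - hc ⟨φ, h4, h5, h6⟩
    refine h4 (psc_core H h5 (fun y => neg_eq_zero.1 ((h6 y).trans (zero_smul _ _)))
      (div_pos h1 Nat.ofNat_pos) hh hs fun y => ?_)
    rw [show (wh e f h).cyl.fc (fz ⟨θ.a, φ⟩) (y, 0) = 0 from hc y, inner_zero_left, mul_zero]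
    exact neg_nonpos.2 (mul_nonneg p3 (sq_nonneg _))

end Crest.Agent.X212.Es42
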