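import Crest.Agent.X212.Dl42.Main
import Crest.Agent.X212.Dec47.Bas
import Crest.Agent.X212.Cyl58.PsW

/-!
# Row 212, ES-FLAT (helper42): invariance under the identity component, flat connections
-/

set_option autoImplicit false
set_option linter.unusedSectionVars false
noncomputable section
open scoped Manifold ContDiff Topology InnerProductSpace
open Finset Filter MeasureTheory

namespace Crest.Agent.X212.Es42
open An Sob92 Wz78 Cyf70 Dl42
open Dec47 (ay ei gau_ei ay_a ay_Φ adm_ay th_ei cd_ei ay_one)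
open Sw (Bg F2 En3 Gau)
open Sw.En3 (sl fz gr ip nm hol gn L Crit Eqv)
open Map77 (f2 s2 i1 i2)

variable {κ lam ν : Type} [Fintype κ] [Fintype lam] [Fintype ν] [DecidableEq ν]
  {e : En3 κ lam ν} {v : e.YC} {a b : κ → e.Y.M → ℝ} {χ : e.Y.M → ℝ}

theorem sq_zero (s : ∀ k, Sm e.Y.I (a k)) (h : ∫ y, ∑ k, a k y * a k y ∂e.D.F.μ = 0) (k : κ)
    (y : e.Y.M) : a k y = 0 := by
  have := openPos e.D.F.toPre
  have c : Sm e.Y.I fun y => ∑ k, a k y * a k y := fun y => SA.sum _ fun k _ => SA.mul (s k y) (s k y)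
  have h1 := (integral_eq_zero_iff_of_nonneg (fun y => sum_nonneg fun k _ => mul_self_nonneg _)
    (ii _ c)).1 h
  exact mul_self_eq_zero.1 ((sum_eq_zero_iff_of_nonneg fun k _ => mul_self_nonneg _).1
    (congrFun ((c.continuous.ae_eq_iff_eq _ continuous_zero).1 h1) y) k (mem_univ k))

theorem sd_lin (ha : ∀ k, Sm e.Y.I (a k)) (hb : ∀ k, Sm e.Y.I (b k)) (r : ℝ) (k : κ) (y : e.Y.M) :
    sd e (fun k y => a k y + r * b k y) k y = sd e a k y + r * sd e b k y := by
  have : ∀ i j, dv e.Y.I (e.D.F.e i) (fun y => a j y + r * b j y) y =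
      dv e.Y.I (e.D.F.e i) (a j) y + r * dv e.Y.I (e.D.F.e i) (b j) y := fun i j =>
    (dv_add' (ha j y) (SA.mul contMDiffAt_const (hb j y))).trans
      (congrArg _ (dv_const_smul r (SA.md (hb j y))))
  simp only [sd, st, d1, this, smul_eq_mul, mul_add, sum_add_distrib, mul_sum, mul_sub,
    sum_sub_distrib, mul_left_comm r]
  ring

theorem sd_D (hχ : Sm e.Y.I χ) (k : κ) (y : e.Y.M) : sd e (fun k => e.D.F.D k χ) k y = 0 :=
  sum_eq_zero fun i _ => sum_eq_zero fun j _ =>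
    mul_eq_zero_of_right _ (sub_eq_zero.2 ((frm _).br i j χ y (hχ y)))

variable (he : e.OK)
include he

/-- the functional is invariant under the identity component of the gauge group -/
theorem L_ei (hv : e.cyl.Adm (fz v)) (hχ : Sm e.Y.I χ) : L (ay (ei χ) v) = L v := by
  have A := ay_of hv
  have s : ∀ r : ℝ, Sm e.Y.I fun y => r * χ y := fun r => contMDiff_const.mul hχ
  have B := fun r => ay_of (adm_ay he hv (gau_ei (s r)))
  have F : FY (fun r => ay (ei fun y => r * χ y) v) fun r =>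
      gau (ay (ei fun y => r * χ y) v) (-χ) := by
    refine ⟨fun k => ?_, ⟨?_, fun r y => ?_⟩, B⟩
    · have h : ∀ r : ℝ, (ay (ei fun y => r * χ y) v).a k =
          fun y => v.a k y + r • e.D.F.D k (-χ) y := fun r => funext fun y => by
        rw [ay_a (gau_ei (s r)).1, th_ei _ (s r y), Pre.D_def, Pre.D_def, dv_neg, smul_neg,
          sub_eq_add_neg]
        exact congrArg (_ + -·) (dv_const_smul r (SA.md (hχ y)))
      have k1 := fam_sc (e.D.F.sm_D hχ.neg k)
      simp only [h]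
      exact ⟨(sm_fst (A.sa k)).add k1.sm, fun r y => (k1.dr r y).const_add _⟩
    · exact fun x => (SA.clm (Pb50.cB e.m.J) (cd_ei.contMDiff.contMDiffAt.comp x
        (SA.mul contMDiffAt_snd (sm_fst hχ x)))).app (sm_fst A.sΦ x)
    · have d := (((hasDerivAt_id r).mul_const (χ y)).ofReal_comp.mul_const Complex.I).cexp
      refine (((Pb50.cB e.m.J).flip (v.Φ y)).hasFDerivAt.comp_hasDerivAt r d).congr_deriv ?_
      rw [mul_comm]
      refine (Eqv71.cs_mul (J := e.m.J) he.cyl.m.Jsq _ _ _).symm.trans ?_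
      simp [gau, cs, ay_Φ, ei, add_comm]
  have := is_const_of_deriv_eq_zero (fun r => (F.dL he r).differentiableAt)
    (fun r => (F.dL he r).deriv.trans (nul_gau he (B r) hχ.neg).zero) 1 0
  simpa only [one_mul, zero_mul, show ei (fun _ : e.Y.M => 0) = fun _ => 1 from
    funext fun _ => by simp [ei], ay_one] using this

theorem sm_sd (ha : ∀ k, Sm e.Y.I (a k)) (k : κ) : Sm e.Y.I (sd e a k) := by
  simpa only [one_smul] using (fam_sd he (fun k => fam_sc (ha k)) k).sm.sl 1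

theorem st_P (f : κ → κ → e.Y.M → ℝ) (k : κ) (y : e.Y.M) :
    ∑ j, e.D.F.P k j y • st e f j y = st e f k y := by
  simp only [st, ← (p3 he y).po k, smul_eq_mul, mul_sum, sum_mul, mul_assoc]
  exact sum_comm.trans (sum_congr rfl fun _ _ => sum_comm)

theorem clo_of (ha : ∀ k, Sm e.Y.I (a k)) (pa : ∀ k y, ∑ j, e.D.F.P k j y * a j y = a k y)
    (h : ∀ k y, sd e a k y = 0) : e.Clo a :=
  ⟨ha, pa, fun i j y => sub_eq_zero.1 ((Cyl58.o3_inv he (Cyl58.da_anti pa · · y)
    (Cyl58.da_P ha pa · · y) i j).symm.trans (sum_eq_zero fun k _ =>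
      mul_eq_zero_of_right _ (div_eq_zero_iff.2 (.inl (h k y)))))⟩

/-- existence of flat connections -/
theorem ex_flat (h1 : e.H1) : ∃ a : κ → e.Y.M → ℝ, (∀ k, Sm e.Y.I (a k)) ∧
    (∀ k y, ∑ j, e.D.F.P k j y * a j y = a k y) ∧ ∀ k y, st e (f0 e) k y + sd e a k y = 0 := by
  obtain ⟨C, hF⟩ := Cyl58.tame3 e
  obtain ⟨C', hA⟩ := Cyl58.good1 _ hF
  let w : Sec e.Y.I (Cyl58.A1 e.D.F).q := Ell97.tst (fun y => i2 _ _ (-(√2)⁻¹ • WithLp.toLp 2
    fun s : κ × κ => f0 e s.1 s.2 y)) (fun y => SA.clm _ (SA.smul contMDiffAt_const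
      (Sep15.S.sa_lp fun s => sm_f0 he s.1 s.2 y))) (.of_compactSpace _)
  obtain ⟨x, hx⟩ := Cyl58.hodge_sm hF hA (Cyl58.cliff1 _) w
  have c : ∀ u : Sec e.Y.I (Cyl58.P1 e.D.F), (∀ k, Sm e.Y.I fun y => u.1 y k) ∧
      ∀ k y, ∑ j, e.D.F.P k j y * u.1 y j = u.1 y k := fun u =>
    ⟨fun k y => SA.comp (u.2.1 y) k, fun k y => by simpa using congrArg (· k) (u.2.2.2 y)⟩
  refine ⟨fun k y => x.1 y k, (c x).1, (c x).2, ?_⟩
  set γ : κ → e.Y.M → ℝ := fun k y => st e (f0 e) k y + sd e (fun k y => x.1 y k) k y with hγ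
  have sγ : ∀ k, Sm e.Y.I (γ k) := fun k => (sm_st0 he k).add (sm_sd he (c x).1 k)
  have pγ : ∀ k y, ∑ j, e.D.F.P k j y • γ j y = γ k y := fun k y => by
    simp only [γ, sd, smul_add, sum_add_distrib, st_P he]
  have s1 := sm_sd he sγ
  obtain ⟨χ, hχ, h2⟩ := Cyl58.coul0 hF (Cyl58.sec1 e.D.F s1 (st_P he _))
  have cu := c (Cyl58.sec1 e.D.F s1 (st_P he _) - Cyl58.dS _ hχ)
  have sD := fun {χ : e.Y.M → ℝ} (h : Sm e.Y.I χ) k => e.D.F.sm_D h k
  have pD := fun χ : e.Y.M → ℝ => fun k y => (frm e.D.F).projD k χ y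
  have h3 := Ell97.adj_ip hA (Cyl58.sec1 e.D.F s1 (st_P he _) - Cyl58.dS _ hχ) (w - Ell97.LS hA x)
  rw [hx] at h3
  have n0 : Nul e.D.F.μ _ := ⟨ii _ fun y => SA.inner ((Ell97.LS hA _).2.1 y)
    ((w - Ell97.LS hA x).2.1 y), h3.trans (by simp [Pre.ip])⟩
  have h4 := sq_zero s1 (((n0.mul (-4)).add ((nul_sd he sγ cu.1 pγ cu.2).mul (-1))).add
    ((nul_sd he sγ (sD hχ) pγ (pD χ)).mul (-1)) |>.of fun y => ?_).zero
  · obtain ⟨ψ, hψ, h5⟩ := h1.ex γ (clo_of he sγ pγ h4)
    refine sq_zero sγ ((nul_f0 he hψ).add ((nul_sd he (c x).1 (sD hψ) (c x).2 (pD ψ)).mul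
      (-1)) |>.of fun y => ?_).zero
    simp only [sd_D hψ, zero_mul, sum_const_zero]
    simp only [← h5]
    simp only [hγ, add_mul, sum_add_distrib]
    ring
  · have C := conA he
    have k := Cyl58.o3_inv he (y := y) (η := fun i j => f0 e i j y + Cyl58.da e (fun k y => x.1 y k) i j y)
      (fun i j => by
        rw [f0, f0, (lc_gam _).curv_anti C, map_neg, inner_neg_right, mul_neg,
          Cyl58.da_anti (c x).2, neg_add])
      fun i j => by
        simp only [mul_add, sum_add_distrib, Cyl58.da_P (c x).1 (c x).2, add_left_inj]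
        simp only [f0, ← (lc_gam _).curv_p1 (frm _) (sep _) C i j y, map_sum, map_smul, inner_sum,
          real_inner_smul_right, mul_sum, mul_left_comm]
    have k2 : ∀ k, ∑ i, ∑ j, Cyl58.o3 e k i j y * (f0 e i j y + Cyl58.da e (fun k y => x.1 y k) i j y) =
        γ k y := fun k => by simp only [mul_add, sum_add_distrib]; rfl
    simp only [k2] at k
    have k3 : (√2 : ℝ)⁻¹ * (√2)⁻¹ = 1 / 2 := by rw [← mul_inv, Real.mul_self_sqrt zero_le_two, one_div]
    generalize hu : Cyl58.sec1 e.D.F s1 (st_P he _) - Cyl58.dS _ hχ = u at h2 ⊢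
    have k4 : ∀ k, u.1 y k = sd e γ k y - e.D.F.D k χ y := fun k => by rw [← hu]; rfl
    have k5 : ⟪(Ell97.LS hA u).1 y, (w - Ell97.LS hA x).1 y⟫_ℝ =
        -(1 / 4) * ∑ k, sd e (fun k y => u.1 y k) k y * γ k y := by
      change ⟪(Cyl58.A1 e.D.F).app _ u.1 y, i2 _ _ _ - (Cyl58.A1 e.D.F).app _ x.1 y⟫_ℝ = _
      rw [Cyl58.app1, Cyl58.app1, h2, Map77.inner2]
      simp only [map_add, map_sub, Map77.f2_i1, Map77.f2_i2, Map77.s2_i1, Map77.s2_i2, add_zero,
        inner_zero_left, zero_add, neg_smul, ← neg_add', ← smul_add, inner_neg_right,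
        real_inner_smul_left, real_inner_smul_right, ← mul_assoc, k3]
      simp only [PiLp.inner_apply, PiLp.add_apply, Fintype.sum_prod_type, RCLike.inner_apply,
        conj_trivial, ← k, sd, st, G, sum_mul, mul_sum, ← sum_neg_distrib]
      exact ((sum_congr rfl fun _ _ => sum_comm).trans sum_comm).trans (sum_congr rfl fun _ _ =>
        sum_congr rfl fun _ _ => sum_congr rfl fun _ _ => by ring)
    simp only [k4, k5, sd_D hχ, mul_sub, sum_sub_distrib, zero_mul, sum_const_zero]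
    ring

end Crest.Agent.X212.Es42
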