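import Crest.Agent.X212.Es42.Rs
import Crest.Agent.X212.Es42.Inv

/-!
# Row 212, ES-FLAT (helper42): the reducible point of a rational homology sphere
-/

set_option autoImplicit false
set_option linter.unusedSectionVars false
noncomputable section
open scoped Manifold ContDiff Topology InnerProductSpace
open Finset Filter MeasureTheory

namespace Crest.Agent.X212.Es42
open An Sob92 Wz78 Cyf70 End23
open Dl42 hiding dl
open Dec47 (ay ei gau_ei ay_a ay_Φ fz_ay th_ei)
open Sw (En3)
open Sw.En3 (sl fz gr Crit)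

variable {κ lam ν : Type} [Fintype κ] [Fintype lam] [Fintype ν] [DecidableEq ν]
  {e : En3 κ lam ν} {v : e.YC}

theorem gr_red (he : e.OK) (h0 : e.om = 0) (hf : e.f = 0) (A : Ay v) (h : v.Φ = 0) (k : κ)
    (y : e.Y.M) : (gr v).a k y = (st e (f0 e) k y + sd e v.a k y) / 2 := by
  simp only [gr_a he A, Ga, g0, qq, h, h0, hf, Pi.zero_apply, inner_zero_right, deriv_zero,
    PiLp.zero_apply]
  ring

/-- **ES-FLAT** -/
theorem flatStmt : FlatStmt κ lam ν := fun e he h1 h0 hf => by
  refine ⟨fun v v' hv ⟨u, hu, k⟩ => ?_, ?_, fun θ θ' h h' => ?_, fun θ h a ha k => ?_⟩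
  · obtain ⟨χ, s, k'⟩ := h1.lg u hu
    rw [eq_ay k, show u = ei χ from funext k', L_ei he hv s]
  · obtain ⟨a, s, p, h⟩ := ex_flat he h1
    have A : Ay (⟨a, 0⟩ : e.YC) := ⟨s, contMDiff_const, p, fun _ => map_zero _⟩
    exact ⟨⟨a, 0⟩, ⟨A.adm, fun k y => by rw [gr_red he h0 hf A rfl, h, zero_div],
      fun y => by simp [gr, Sw.Bg.eD, dir, nab, fz, dv_const]⟩, rfl⟩
  · have A := ay_of h.1.1
    have A' := ay_of h'.1.1
    obtain ⟨χ, s, k⟩ := h1.ex _ (clo_of he (a := fun k y => θ.a k y + -1 * θ'.a k y)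
      (fun k => (A.sa k).add (contMDiff_const.mul (A'.sa k))) (fun k y => by
        simp only [← A.pa k y, ← A'.pa k y, smul_eq_mul, mul_add, sum_add_distrib, mul_sum,
          mul_left_comm (-1 : ℝ)]) fun k y => by
      linarith [sd_lin A.sa A'.sa (-1) k y, gr_red he h0 hf A h.2 k y, gr_red he h0 hf A' h'.2 k y,
        h.1.2.1 k y, h'.1.2.1 k y])
    refine ⟨χ, s, .trans (congrArg fz ?_) (fz_ay (gau_ei s).1 θ)⟩
    ext1
    · funext i y
      rw [ay_a (gau_ei s).1, th_ei _ (s y), ← k]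
      ring
    · funext y
      simp [ay_Φ, h.2, h'.2, cs]
  · have A := ay_of h.1.1
    have B := ay_of ha
    obtain ⟨χ, s, k'⟩ := h1.ex _ (clo_of he B.sa B.pa fun i y => by
      have d := k i y
      simp only [fun r => gr_red he h0 hf ((fy_vr A B).ay r) (funext fun y => by
        simp [En3.YC.vr, h.2])] at d
      have := ((((fam_sd he (fy_vr A B).a i).dr 0 y).const_add _).div_const 2).unique d
      linarith)
    exact ⟨-χ, s.neg, fun i y => by rw [Pre.D_def, dv_neg, neg_neg]; exact k' i y⟩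

end Crest.Agent.X212.Es42
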