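import Crest.Agent.X212.Es42.Red

/-!
# Row 212, EN-SLC (helper42): estimates at reducible configurations
-/

set_option autoImplicit false
set_option linter.unusedSectionVars false
noncomputable section
open scoped Manifold ContDiff Topology InnerProductSpace
open Finset Filter MeasureTheory

namespace Crest.Agent.X212.Es42
open An Sob92 Wz78 Cyf70 End23
open Dl42 hiding dl
open Dec47 (ay eqv_ay)
open Sw (En3 Gau Bg F2)
open Sw.En3 (sl fz gr nm gn hol Crit Eqv)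
open Wp42 (cv norm_cv sm_ga)

theorem exists_sg {Z : Set ℝ} {ρ : ℝ} (hρ : 0 < ρ)
    (sep : ∀ z ∈ Z, ∀ z' ∈ Z, |z - z'| < 4 * ρ → z = z') :
    ∃ σ K, Sg σ K ∧ ∀ z ∈ Z, ∀ r, |r - z| < ρ / 2 → σ r = z ∧ deriv σ r = 0 := by
  classical
  let β : ContDiffBump (0 : ℝ) := ⟨ρ / 2, ρ, half_pos hρ, half_lt_self hρ⟩
  let q : ℝ → ℝ := fun x => x * β x
  have sq : ContDiff ℝ ∞ q := contDiff_id.mul β.contDiff
  obtain ⟨B, hB⟩ := (sq.continuous_deriv (by simp)).bounded_above_of_compact_support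
    β.hasCompactSupport.mul_left.deriv
  have q0 : ∀ x, ρ ≤ |x| → q x = 0 := fun x h =>
    mul_eq_zero_of_right _ (β.zero_of_le_dist (by rwa [Real.dist_eq, sub_zero]))
  have q1 : ∀ x, |q x| ≤ ρ := fun x => (le_total ρ |x|).elim (fun h => by rw [q0 x h, abs_zero]; exact hρ.le)
    fun h => (abs_mul _ _).trans_le ((mul_le_of_le_one_right (abs_nonneg _)
      (abs_le.2 ⟨neg_one_lt_zero.le.trans β.nonneg, β.le_one⟩)).trans h)
  let σ : ℝ → ℝ := fun r => if h : ∃ z ∈ Z, |r - z| < 2 * ρ then r - q (r - h.choose) else r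
  have h1 : ∀ z ∈ Z, ∀ r, |r - z| < 2 * ρ → σ r = r - q (r - z) := fun z hz r h => by
    have k : ∃ z ∈ Z, |r - z| < 2 * ρ := ⟨z, hz, h⟩
    rw [sep z hz _ k.choose_spec.1 ((abs_sub_le z r _).trans_lt (by
      linarith [k.choose_spec.2, abs_sub_comm z r]))]
    exact dif_pos k
  have o : ∀ {x z a : ℝ}, |x - z| < a → ∀ᶠ r in 𝓝 x, |r - z| < a := fun h =>
    (by fun_prop : Continuous fun r : ℝ => |r - _|).continuousAt.eventually_lt continuousAt_const h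
  have h2 : ∀ x, ∃ z, σ =ᶠ[𝓝 x] fun r => r - q (r - z) := fun x => by
    by_cases h : ∃ z ∈ Z, |x - z| < 2 * ρ
    · obtain ⟨z, hz, h⟩ := h
      exact ⟨z, (o h).mono (h1 z hz)⟩
    · refine ⟨x + 2 * ρ, (o (z := x) (a := ρ) (by simpa)).mono fun r hr => ?_⟩
      have k : ∀ z, 2 * ρ ≤ |x - z| → q (r - z) = 0 := fun z hz =>
        q0 _ (by linarith [abs_sub_le x r z, abs_sub_comm x r])
      simp only [σ, k (x + 2 * ρ) (by rw [sub_add_cancel_left, abs_neg]; exact le_abs_self _)]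
      split_ifs with h'
      · rw [k _ (le_of_not_gt fun k => h ⟨_, h'.choose_spec.1, k⟩)]
      · rw [sub_zero]
  refine ⟨σ, 1 + |B| + ρ, ⟨contDiff_iff_contDiffAt.2 fun x => ?_, fun x => ?_, fun x => ?_⟩,
    fun z hz r h => ?_⟩
  · obtain ⟨z, h⟩ := h2 x
    exact (contDiff_id.sub (sq.comp (contDiff_id.sub contDiff_const))).contDiffAt.congr_of_eventuallyEq h
  · obtain ⟨z, h⟩ := h2 x
    rw [h.deriv_eq, ((hasDerivAt_id' x).fun_sub (((sq.differentiable (by simp) _).hasDerivAt).comp_sub_const x z)).deriv]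
    refine (abs_sub _ _).trans ?_
    linarith [(hB (x - z)).trans (le_abs_self B), abs_one (α := ℝ), Real.norm_eq_abs (deriv q (x - z))]
  · obtain ⟨z, h⟩ := h2 x
    rw [h.self_of_nhds, sub_sub_cancel]
    linarith [q1 (x - z), abs_nonneg B]
  · have k : σ =ᶠ[𝓝 r] fun _ => z := (o h).mono fun s hs => by
      rw [h1 z hz s (by linarith), show q (s - z) = (s - z) * 1 from congrArg _
        (β.one_of_mem_closedBall (by rw [mem_closedBall_zero_iff]; exact hs.le)), mul_one, sub_sub_cancel]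
    exact ⟨k.self_of_nhds, k.deriv_eq.trans (deriv_const _ _)⟩

theorem per_zero {h : ℝ → ℝ} (hc : Continuous h) (hp : Function.Periodic h 1) (h0 : h 0 = 0)
    (hz : ∀ z, h z = 0 → ∃ c ≠ 0, ∀ᶠ r in 𝓝 z, h r = c * (r - z)) : ∃ K ≥ (0 : ℝ), ∃ ρ > (0 : ℝ),
    ∀ s, (∃ z, h z = 0 ∧ |s - z| ≤ K * |h s|) ∧ (h s = 0 → ∀ z, h z = 0 → |s - z| < ρ → s = z) := by
  obtain ⟨K, K0, ρ, ρ0, k⟩ := (isCompact_Icc (a := (0 : ℝ)) (b := 1)).induction_on
    (p := fun U => ∃ K ≥ (0 : ℝ), ∃ ρ > (0 : ℝ), ∀ s ∈ U, (∃ z, h z = 0 ∧ |s - z| ≤ K * |h s|) ∧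
      (h s = 0 → ∀ z, h z = 0 → |s - z| < ρ → s = z)) ⟨0, le_rfl, 1, one_pos, by simp⟩
    (fun _ _ st ⟨K, a, ρ, b, k⟩ => ⟨K, a, ρ, b, fun s hs => k s (st hs)⟩)
    (fun _ _ ⟨K, a, ρ, b, k⟩ ⟨K', a', ρ', b', k'⟩ => ⟨max K K', le_max_of_le_left a, min ρ ρ',
      lt_min b b', fun s hs => hs.elim (fun hs => ⟨(k s hs).1.imp fun z m => ⟨m.1, m.2.trans
        (by gcongr; exact le_max_left _ _)⟩, fun m z n o => (k s hs).2 m z n (lt_min_iff.1 o).1⟩)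
        fun hs => ⟨(k' s hs).1.imp fun z m => ⟨m.1, m.2.trans (by gcongr; exact le_max_right _ _)⟩,
          fun m z n o => (k' s hs).2 m z n (lt_min_iff.1 o).2⟩⟩) fun x _ => by
    by_cases hx : h x = 0
    · obtain ⟨c, c0, k⟩ := hz x hx
      obtain ⟨ρ, ρ0, k⟩ := Metric.eventually_nhds_iff.1 k
      have k1 : ∀ s, |s - x| < ρ → h s = 0 → s = x := fun s a b =>
        sub_eq_zero.1 ((mul_eq_zero.1 ((k a).symm.trans b)).resolve_left c0)
      refine ⟨_, mem_nhdsWithin_of_mem_nhds (Metric.ball_mem_nhds x ρ0), |c|⁻¹, by positivity, ρ, ρ0,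
        fun s hs => ⟨⟨x, hx, ?_⟩, fun a z b d => ?_⟩⟩
      · rw [k hs, abs_mul, inv_mul_cancel_left₀ (abs_pos.2 c0).ne']
      · rw [k1 s hs a] at d ⊢
        exact (k1 z (abs_sub_comm x z ▸ d) b).symm
    · have p := half_pos (abs_pos.2 hx)
      refine ⟨_, mem_nhdsWithin_of_mem_nhds (inter_mem (Metric.ball_mem_nhds x one_pos)
        (hc.abs.continuousAt.eventually (lt_mem_nhds (half_lt_self (abs_pos.2 hx))))),
        (|x| + 1) / (|h x| / 2), by positivity, 1, one_pos, fun s hs => ⟨⟨0, h0, ?_⟩, fun a => ?_⟩⟩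
      · have : |s - x| < 1 := hs.1
        rw [div_mul_eq_mul_div, le_div_iff₀ p]
        exact mul_le_mul (by linarith [abs_sub_le s x 0, congrArg abs (sub_zero x)]) hs.2.le p.le
          (by positivity)
      · exact (p.trans hs.2).ne' (abs_eq_zero.2 a) |>.elim
  have e : ∀ (n : ℤ) x, h (x + n) = h x := fun n x => by simpa using hp.int_mul n x
  refine ⟨K, K0, ρ, ρ0, fun s => ?_⟩
  obtain ⟨⟨z, a, b⟩, c⟩ := k (Int.fract s) ⟨Int.fract_nonneg s, (Int.fract_lt_one s).le⟩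
  rw [← e ⌊s⌋ (Int.fract s), Int.fract_add_floor] at b c
  refine ⟨⟨z + ⌊s⌋, (e _ _).trans a, by rwa [Int.fract, sub_sub, add_comm] at b⟩, fun m z n o => ?_⟩
  exact sub_left_injective (c m (z - ⌊s⌋) (by rw [← e ⌊s⌋, sub_add_cancel, n])
    (by rwa [Int.fract, sub_sub_sub_cancel_right]))

variable {κ lam ν : Type} [Fintype κ] [Fintype lam] [Fintype ν] [DecidableEq ν]
  {e : En3 κ lam ν} {v θ : e.YC} {u : e.Y.M → ℂ} {z a b : κ → e.Y.M → ℝ} {χ : e.Y.M → ℝ}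

theorem pr_sub (hz : ∀ k, Sm e.Y.I (z k)) (ha : ∀ k, Sm e.Y.I (a k)) (hb : ∀ k, Sm e.Y.I (b k)) :
    pr e z (a - b) = pr e z a - pr e z b := by
  simp only [pr, Pi.sub_apply, mul_sub, sum_sub_distrib, integral_sub (i_pr hz ha) (i_pr hz hb)]

theorem pr_smul (r : ℝ) : pr e z (r • a) = r * pr e z a := by
  simp only [pr, Pi.smul_apply, smul_eq_mul, mul_left_comm _ r, ← mul_sum, integral_const_mul]

theorem clo_D (hχ : Sm e.Y.I χ) : e.Clo (d0 e χ) :=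
  ⟨(ay_D hχ).sa, (ay_D hχ).pa, fun i j y => (frm _).br i j χ y (hχ y)⟩

theorem ay_sub (A : Ay v) (B : Ay θ) : Ay (⟨v.a - θ.a, 0⟩ : e.YC) :=
  ay0 (fun k => (A.sa k).sub (B.sa k)) fun k y => by
    simp only [Pi.sub_apply, mul_sub, sum_sub_distrib, ← A.pa k y, ← B.pa k y, smul_eq_mul]

theorem da_le (he : e.OK) (A : Ay v) (B : Ay θ) {y : e.Y.M} (h : e.cyl.fc (fz θ) (y, 0) = 0) :
    ‖Lw78.da e.D.F (v.a - θ.a) y‖ ^ 2 ≤ ‖e.cyl.fc (fz v) (y, 0)‖ ^ 2 := by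
  have k : ∀ i j, Lw78.da e.D.F (v.a - θ.a) y (i, j) = e.cyl.fc (fz v) (y, 0) (some i, some j) :=
    fun i j => by
      rw [← sub_zero (e.cyl.fc _ _), ← h, Cyl58.fc_fz he A.adm, Cyl58.fc_fz he B.adm,
        add_sub_add_left_eq_sub]
      simp only [Lw78.da, Cyl58.up2, d1, PiLp.sub_apply, Pi.sub_apply, Pre.D_def, mul_sub,
        fun i j => dv_sub (e := e.D.F.e i) (SA.md (A.sa j y)) (SA.md (B.sa j y)), smul_eq_mul,
        sum_sub_distrib]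
      ring
  simp only [PiLp.norm_sq_eq_of_L2, Fintype.sum_prod_type, Fintype.sum_option, k, sum_add_distrib]
  exact le_add_of_nonneg_of_le (by positivity) (le_add_of_nonneg_left (by positivity))

theorem hol_dec (he : e.OK) (V : Ay v) (A : Ay θ) (hχ : Sm e.Y.I χ) (hb : ∀ k, Sm e.Y.I (b k))
    (s : ℝ) : (hol θ + s * hol (⟨b, 0⟩ : e.YC) - hol v) ^ 2 ≤ 16 * pr e (fun k y => e.ζ y (none, some k))
      (fun k y => e.ζ y (none, some k)) * n1 e 1 (v.a - θ.a - d0 e χ - s • b) ^ 2 := by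
  have sz := fun k => sm_ζ he (none, some k)
  have s1 : ∀ k, Sm e.Y.I ((v.a - θ.a) k) := fun k => (V.sa k).sub (A.sa k)
  have s2 : ∀ k, Sm e.Y.I ((v.a - θ.a - d0 e χ) k) := fun k => (s1 k).sub ((ay_D hχ).sa k)
  have s3 : ∀ k, Sm e.Y.I ((s • b) k) := fun k y => SA.mul contMDiffAt_const (hb k y)
  have s4 : ∀ k, Sm e.Y.I ((v.a - θ.a - d0 e χ - s • b) k) := fun k => (s2 k).sub (s3 k)
  have h := (pr_sq sz s4).trans (mul_le_mul_of_nonneg_left (pr_le s4) (pr_nonneg _))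
  rw [pr_sub sz s2 s3, pr_sub sz s1 (ay_D hχ).sa, pr_sub sz V.sa A.sa, pr_smul,
    show pr e _ (d0 e χ) = 0 from he.clζ χ hχ] at h
  simp only [hol_eq]
  linarith

variable {M : (lf e).Gen} (hM : Mo M) (j : M.ρ) (H : Hd e u)
include hM

theorem cases_h (hu : Gau e.Y.I u) (hc : (e.H1 ∧ e.f = 0) ∨ per e u ≠ 0) : ∃ Z : Set ℝ, ∃ ρ > (0 : ℝ),
    ∃ K ≥ (0 : ℝ), (∀ z ∈ Z, ∀ z' ∈ Z, |z - z'| < 4 * ρ → z = z') ∧
    (∀ z ∈ Z, deriv e.f (hol (M.θ j) + z * hol (⟨H.η, 0⟩ : (lf e).YC)) = 0) ∧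
    (∀ a, ∃ z ∈ Z, |H.s a - z| ≤
      K * |deriv e.f (hol (M.θ j) + H.s a * hol (⟨H.η, 0⟩ : (lf e).YC))|) ∧
    ∀ v : (lf e).YC, Ay v → v.Φ = 0 → deriv e.f (hol v) ^ 2 ≤ K * gn v := by
  rcases hc with ⟨h1, hf⟩ | hp
  · obtain ⟨χ, s, k⟩ := h1.ex _ H.cl
    have h0 : H.s = 0 := (H.lg.2.resolve_right fun h => zero_ne_one ((H.ex χ s).1.symm.trans
      ((congrArg H.s (funext₂ k)).symm.trans h))).2
    exact ⟨{0}, 1, one_pos, 0, le_rfl, fun _ a _ b _ => a.trans b.symm, by simp [hf],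
      fun a => ⟨0, rfl, by simp [h0]⟩, by simp [hf]⟩
  have he := hM.ok
  have hη : (lf e).Clo H.η := ⟨H.cl.sm, H.cl.pr, H.cl.cl⟩
  have U := ay0 hη.sm hη.pr
  obtain ⟨χ, s, k⟩ := H.lg.1
  have h1 : per (lf e) u = hol (⟨H.η, 0⟩ : (lf e).YC) := by
    have := hol_vr he U (ay_D s) 1
    rw [hol_D he s, mul_zero, add_zero] at this
    exact (congrArg (fun a => hol (⟨a, 0⟩ : (lf e).YC)) (funext₂ fun i y =>
      (eq_add_of_sub_eq (congrFun₂ k i y).symm).trans (congrArg _ (one_mul _).symm))).trans this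
  have p : hol (⟨H.η, 0⟩ : (lf e).YC) ≠ 0 := h1 ▸ hp
  have A := (mo_flat hM j).1
  obtain ⟨K, K0, ρ, ρ0, h⟩ := per_zero (h := fun r =>
    deriv e.f (hol (M.θ j) + r * hol (⟨H.η, 0⟩ : (lf e).YC)))
    ((he.sf.continuous_deriv (by simp)).comp (by fun_prop)) (fun r => by
      have := he.per _ _ ((fy_vr A U).ay (r + 1)).adm (eqv_ay (e := lf e) hu _)
      rw [hol_ay he ((fy_vr A U).ay (r + 1)).adm hu, hol_vr he A U, h1] at this
      exact this.symm.trans (congrArg _ (by ring))) (by simpa using hM.fl j) (tor_zero hM hη p j)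
  have q := div_nonneg (mul_nonneg zero_le_two (pr_nonneg (e := lf e) H.η))
    (sq_nonneg (hol (⟨H.η, 0⟩ : (lf e).YC)))
  refine ⟨_, ρ / 4, by positivity, K + _, add_nonneg K0 q, fun z a z' b c => (h z).2 a z' b
    (by linarith), fun z a => a, fun a => ((h _).1.imp fun z m => ⟨m.1, m.2.trans
      (mul_le_mul_of_nonneg_right (le_add_of_nonneg_right q) (abs_nonneg _))⟩), fun v V h0 => ?_⟩
  have := pair he hM.om hη V h0 A (mo_flat hM j).2
  rw [mul_pow, ← le_div_iff₀ (by positivity), mul_div_right_comm] at this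
  exact this.trans (mul_le_mul_of_nonneg_right (le_add_of_nonneg_left K0) (gn_nonneg he v))

theorem mo_fc (y : e.Y.M) : (lf e).cyl.fc (fz (M.θ j)) (y, 0) = 0 := by
  have h1 := norm_cv hM.ok (v := M.θ j) (y := y)
  have h2 := fc_sq hM.ok hM.om (mo_flat hM j).1 (hM.red j) y
  simp only [show ∀ k, (gr (M.θ j)).a k y = 0 from fun k => (hM.crit (.inr j)).2.1 k y, mul_zero,
    sum_const_zero] at h1
  rw [show deriv (lf e).f _ = 0 from hM.fl j, zero_smul, sub_zero, ← h1, mul_zero] at h2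
  exact norm_eq_zero.1 (pow_eq_zero_iff two_ne_zero |>.1 h2)

/-- the estimates at reducible configurations -/
theorem red_est (hu : Gau e.Y.I u) (hc : (e.H1 ∧ e.f = 0) ∨ per e u ≠ 0) : ∃ Z : Set ℝ,
    ∃ ρ > (0 : ℝ), ∃ K ≥ (0 : ℝ), (∀ z ∈ Z, ∀ z' ∈ Z, |z - z'| < 4 * ρ → z = z') ∧
    (∀ z ∈ Z, ∀ χ, Sm e.Y.I χ → Red (⟨(M.θ j).a + d0 e χ + z • H.η, 0⟩ : (lf e).YC)) ∧
    ∀ v : (lf e).YC, Ay v → v.Φ = 0 → (∃ z ∈ Z, (H.s (v.a - (M.θ j).a) - z) ^ 2 ≤ K * gn v) ∧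
      ∫ y, ‖(lf e).cyl.fc (fz v) (y, 0)‖ ^ 2 ∂e.D.F.μ ≤ K * gn v := by
  obtain ⟨Z, ρ, ρ0, K, K0, h1, h2, h3, h4⟩ := cases_h hM j H hu hc
  have he := hM.ok
  have hη : (lf e).Clo H.η := ⟨H.cl.sm, H.cl.pr, H.cl.cl⟩
  have U := ay0 hη.sm hη.pr
  have A := (mo_flat hM j).1
  obtain ⟨L, hL⟩ := he.bf 2
  rw [iteratedDeriv_succ, iteratedDeriv_one] at hL
  have sz := fun k => sm_ζ he (none, some k)
  have i1 := Mp86.En.itg (he.sζ.continuous.norm.pow 2)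
  have z0 := pr_nonneg (e := lf e) fun k y => e.ζ y (none, some k)
  have z1 : 0 ≤ ∫ y, ‖e.ζ y‖ ^ 2 ∂e.D.F.μ := integral_nonneg fun _ => sq_nonneg _
  refine ⟨Z, ρ, ρ0, (2 + 4 * K * ∫ y, ‖e.ζ y‖ ^ 2 ∂e.D.F.μ) * (1 + 32 * K ^ 2 * L ^ 2 *
    pr (lf e) (fun k y => e.ζ y (none, some k)) (fun k y => e.ζ y (none, some k)) * H.K ^ 2) +
      2 * K ^ 3, by positivity, h1, fun z hz χ s => ?_, fun v V h0 => ?_⟩
  · have B := (fy_vr A (ay_D s)).ay 1
    have k : (⟨(M.θ j).a + d0 e χ + z • H.η, 0⟩ : (lf e).YC) =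
        ((M.θ j).vr ⟨d0 (lf e) χ, 0⟩ 1).vr ⟨H.η, 0⟩ z := En3.YC.ext (funext₂ fun k y => by
      simp [En3.YC.vr, d0]) (vr_Φ (vr_Φ (hM.red j) 1) z).symm
    rw [k]
    refine red_of he hM.om ((fy_vr B U).ay z) (vr_Φ (vr_Φ (hM.red j) 1) z) (fun k y => ?_) ?_
    · rw [sd_vr he B hη, sd_vr he A (clo_D s), (mo_flat hM j).2]
    · rw [hol_vr he B U, hol_vr he A (ay_D s), hol_D he s, mul_zero, add_zero]
      exact h2 z hz
  have g0 := gn_nonneg he v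
  have k4 := h4 v V h0
  have i2 := (i_pr (sm_ga he V.adm) (sm_ga he V.adm)).const_mul 4
  have i3 := i1.const_mul (4 * deriv e.f (hol v) ^ 2)
  have X1 : ∫ y, ‖(lf e).cyl.fc (fz v) (y, 0)‖ ^ 2 ∂e.D.F.μ ≤
      (2 + 4 * K * ∫ y, ‖e.ζ y‖ ^ 2 ∂e.D.F.μ) * gn v := by
    refine ((integral_mono_of_nonneg (.of_forall fun _ => sq_nonneg _) (i2.add i3)
      (.of_forall fun y => ?_)).trans_eq ((integral_add i2 i3).trans (congrArg₂ _
        (integral_const_mul _ _) (integral_const_mul _ _)))).trans ?_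
    · have := pow_le_pow_left₀ (norm_nonneg _) (norm_sub_le (cv v y) (deriv e.f (hol v) • e.ζ y)) 2
      simp only [Pi.add_apply, Pi.pow_apply, fc_sq he hM.om V h0, norm_cv he]
      rw [norm_smul, Real.norm_eq_abs] at this
      rw [← sq_abs (deriv e.f _)]
      linarith [sq_nonneg (‖cv v y‖ - |deriv e.f (hol v)| * ‖e.ζ y‖)]
    · change 4 * pr _ _ _ + _ * ∫ y, ‖e.ζ y‖ ^ 2 ∂e.D.F.μ ≤ _
      linarith [gn_r h0, mul_le_mul_of_nonneg_right k4 z1]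
  have D : Ay (⟨v.a - (M.θ j).a, 0⟩ : e.YC) := ay0 (ay_sub V A).sa (ay_sub V A).pa
  obtain ⟨z, hz, k3⟩ := h3 (v.a - (M.θ j).a)
  have X2 := (hol_dec he V A (H.sm _ D.adm) hη.sm (H.s (v.a - (M.θ j).a))).trans
    (mul_le_mul_of_nonneg_left (pow_le_pow_left₀ (sum_nonneg fun _ _ => nrm_nonneg _ _)
      (H.le _ D.adm).2.2.2 2) (mul_nonneg (by norm_num) z0))
  have X3 : e.D.F.nrm 0 (Lw78.da e.D.F (v.a - (M.θ j).a)) ^ 2 ≤ _ := (nrm_sq _ _).trans_le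
    ((integral_mono_of_nonneg (.of_forall fun _ => sq_nonneg _) (Mp86.En.itg ((Mp86.En.cs0
      (Mp86.En.sm_fc' he.cyl V.adm)).norm.pow 2)) (.of_forall fun y =>
        da_le he V A (mo_fc hM j y))).trans X1)
  have X4 : |deriv e.f (hol (M.θ j) + H.s (v.a - (M.θ j).a) * hol (⟨H.η, 0⟩ : (lf e).YC)) -
      deriv e.f (hol v)| ≤ L * |_ - hol v| := convex_univ.norm_image_sub_le_of_norm_deriv_le
    (fun x _ => (he.sf.iterate_deriv 1).differentiable (by simp) x) (fun x _ => hL x) trivial trivial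
  have X5 := pow_le_pow_left₀ (abs_nonneg _) X4 2
  have X6 := pow_le_pow_left₀ (abs_nonneg _) k3 2
  rw [mul_pow, sq_abs, sq_abs] at X5 X6
  have X7 := mul_le_mul_of_nonneg_left ((mul_pow _ _ _).trans_le (mul_le_mul_of_nonneg_left X3
    (sq_nonneg H.K))) (mul_nonneg (by norm_num : (0 : ℝ) ≤ 16) z0)
  have X8 := mul_le_mul_of_nonneg_left (X5.trans (mul_le_mul_of_nonneg_left (X2.trans X7)
    (sq_nonneg L))) (sq_nonneg K)
  have c0 := mul_nonneg (show 0 ≤ 2 + 4 * K * ∫ y, ‖e.ζ y‖ ^ 2 ∂e.D.F.μ by positivity) g0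
  refine ⟨⟨z, hz, X6.trans ?_⟩, X1.trans (mul_le_mul_of_nonneg_right (le_add_of_le_of_nonneg
    (le_mul_of_one_le_right (by positivity) (le_add_of_nonneg_right (by positivity)))
      (by positivity)) g0)⟩
  generalize deriv e.f (_ + _) = a at X8 ⊢
  linarith [mul_le_mul_of_nonneg_left k4 (sq_nonneg K),
    mul_nonneg (sq_nonneg K) (sq_nonneg (a - 2 * deriv e.f (hol v)))]

end Crest.Agent.X212.Es42
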