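import Crest.Agent.X212.End23.Crt

/-!
# Row 212, ES-LVL (helper42): levels and flattening functions
-/

set_option autoImplicit false
noncomputable section
open scoped ContDiff Topology
open Set Function Filter

namespace Crest.Agent.X212.Es42
open End23

theorem glue_eq {x : ℝ} (h : 0 < x) : expNegInvGlue x = Real.exp (-x⁻¹) := if_neg h.not_ge

theorem glue_one : 1 / 3 ≤ expNegInvGlue 1 := by
  rw [glue_eq one_pos, inv_one, Real.exp_neg, one_div]
  exact inv_anti₀ (Real.exp_pos _) Real.exp_one_lt_three.le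

theorem cd_prf : ContDiff ℝ ∞ prf :=
  (expNegInvGlue.contDiff.comp (contDiff_const.sub contDiff_id)).div_const _

theorem prf_one {s : ℝ} (h : 1 ≤ s) : prf s = 0 := by
  rw [prf, expNegInvGlue.zero_of_nonpos (sub_nonpos.2 h), zero_div]

theorem prf_mem (r : ℝ) : prf r ∈ Icc (0 : ℝ) 3 := by
  have h := glue_one
  refine ⟨div_nonneg (expNegInvGlue.nonneg _) (by linarith), (div_le_iff₀ (by linarith)).2 ?_⟩
  rcases le_or_gt (1 - r) 0 with k | k
  · rw [expNegInvGlue.zero_of_nonpos k]; linarith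
  · linarith [glue_eq k, Real.exp_le_one_iff.2 (neg_nonpos.2 (inv_pos.2 k).le)]

theorem deriv_prf {s : ℝ} (h : s < 1) : deriv prf s < 0 := by
  have h1 : 0 < 1 - s := sub_pos.2 h
  have h2 := ((((hasDerivAt_id s).const_sub 1).inv h1.ne').neg.exp.div_const (expNegInvGlue 1))
  rw [(h2.congr_of_eventuallyEq ((eventually_lt_nhds h).mono fun r hr => by
    rw [prf, glue_eq (sub_pos.2 hr)]; rfl)).deriv]
  refine div_neg_of_neg_of_pos (mul_neg_of_pos_of_neg (Real.exp_pos _) ?_)
    (expNegInvGlue.pos_of_pos one_pos)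
  rw [neg_neg, neg_lt_zero]
  exact div_pos one_pos (pow_pos h1 2)

theorem levels {A : Set ℝ} (hA : A.Finite) : ∃ (S : Set ℝ) (ψ : ℝ → ℝ), IsCompact S ∧
    ContDiff ℝ ∞ ψ ∧ Monotone ψ ∧ ∀ a ∈ A, a ∉ S ∧ (∀ᶠ r in 𝓝 a, ψ r = ψ a) ∧
      ∀ b ∈ A, a < b → ψ a < ψ b ∧ ∃ r ∈ interior S, a < r ∧ r < b := by
  have h : ∀ᶠ δ in 𝓝[>] (0 : ℝ), ∀ p ∈ A ×ˢ A, p.1 < p.2 → p.1 + 3 * δ ≤ p.2 :=
    (eventually_all_finite (hA.prod hA)).2 fun p _ => eventually_imp_distrib_left.2 fun h =>
      nhdsWithin_le_nhds ((eventually_le_nhds (show (0 : ℝ) < (p.2 - p.1) / 3 by linarith)).mono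
        fun δ k => by linarith)
  obtain ⟨δ, hδ, h0⟩ := (h.and self_mem_nhdsWithin).exists
  replace h0 : 0 < δ := h0
  let g : ℝ → ℝ → ℝ := fun a r => Real.smoothTransition ((r - a) / δ - 1)
  have g0 : ∀ a r, r ≤ a + δ → g a r = 0 := fun a r k => Real.smoothTransition.zero_of_nonpos (by
    rw [sub_nonpos, div_le_one h0]; linarith)
  have g1 : ∀ a r, a + 2 * δ ≤ r → g a r = 1 := fun a r k => Real.smoothTransition.one_of_one_le (by
    rw [le_sub_iff_add_le, le_div_iff₀ h0]; linarith)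
  have gm : ∀ a, Monotone (g a) := fun a r s k => Real.smoothTransition.monotone (by gcongr)
  refine ⟨⋃ a ∈ A, Icc (a + δ) (a + 2 * δ), fun r => ∑ a ∈ hA.toFinset, g a r,
    hA.isCompact_biUnion fun _ _ => isCompact_Icc, ContDiff.sum fun a _ =>
      Real.smoothTransition.contDiff.comp (((contDiff_id.sub contDiff_const).div_const δ).sub
        contDiff_const), fun r s k => Finset.sum_le_sum fun a _ => gm a k,
    fun a ha => ⟨fun k => ?_, ?_, fun b hb k => ⟨Finset.sum_lt_sum (fun c _ => gm c k.le)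
      ⟨a, hA.mem_toFinset.2 ha, ?_⟩, a + 3 / 2 * δ, mem_interior_iff_mem_nhds.2 (mem_of_superset
        (Icc_mem_nhds (by linarith) (by linarith)) (subset_biUnion_of_mem
          (u := fun a => Icc (a + δ) (a + 2 * δ)) ha)), by linarith,
      by linarith [hδ (a, b) ⟨ha, hb⟩ k]⟩⟩⟩
  · obtain ⟨c, hc, k1, k2⟩ := mem_iUnion₂.1 k
    linarith [hδ (c, a) ⟨hc, ha⟩ (by linarith)]
  · filter_upwards [Icc_mem_nhds (sub_lt_self a h0) (lt_add_of_pos_right a h0)] with r hr
    refine Finset.sum_congr rfl fun c hc => ?_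
    rcases lt_or_ge c a with k | k
    · have := hδ (c, a) ⟨hA.mem_toFinset.1 hc, ha⟩ k
      rw [g1 c r (by linarith [hr.1]), g1 c a (by linarith)]
    · rw [g0 c r (by linarith [hr.2]), g0 c a (by linarith)]
  · rw [g0 a a (by linarith), g1 a b (by linarith [hδ (a, b) ⟨ha, hb⟩ k])]
    exact one_pos

/-- **ES-LVL** -/
theorem lvlStmt : LvlStmt := by
  have p := expNegInvGlue.pos_of_pos one_pos
  refine ⟨fun _ => levels, cd_prf, fun c hc => ⟨contDiff_const.mul (cd_prf.of_le (by simp)),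
    by rw [prf, sub_zero, div_self p.ne', mul_one], fun s hs => ?_,
    fun s hs => by rw [prf_one hs, mul_zero]⟩, prf_mem, fun r s k =>
      div_le_div_of_nonneg_right (expNegInvGlue.monotone (by linarith)) p.le, ?_⟩
  · rw [deriv_const_mul_field]
    exact mul_neg_of_pos_of_neg hc (deriv_prf hs.2)
  · rw [prf, glue_eq (by norm_num), glue_eq one_pos, ← Real.exp_sub]
    exact glue_one.trans_eq ((glue_eq one_pos).trans (by norm_num))

end Crest.Agent.X212.Es42
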