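import Crest.Agent.X212.Es42.Psc
import Crest.Agent.X212.Es42.Flat
import Crest.Agent.X212.Cyl58.PsC
import Crest.Agent.X212.End23.Nek

/-!
# Row 212, EN-MORSE (helper42): the gradient bounds small spinors
-/

set_option autoImplicit false
set_option linter.unusedSectionVars false
noncomputable section
open scoped Manifold ContDiff Topology InnerProductSpace
open Finset Filter MeasureTheory

namespace Crest.Agent.X212.Es42
open An Sob92 Wz78 Cyf70 End23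
open Dl42 hiding dl
open Dec47 (ay adm_ay gr_ay ay_Φ ay_a eqv_ay gau_star)
open Sw (En3 Gau)
open Sw.En3 (sl fz gr nm gn Crit Eqv)

variable {κ lam ν : Type} [Fintype κ] [Fintype lam] [Fintype ν] [DecidableEq ν]
  {e : En3 κ lam ν} {v v' θ : e.YC} {g : e.Y.M → ℂ}

theorem i_nm (A : Ay v) : Integrable (fun y => ‖v.Φ y‖ ^ 2) e.D.F.μ :=
  Mp86.En.itg (A.sΦ.continuous.norm.pow 2)

theorem nm_nonneg (v : e.YC) : 0 ≤ nm v := integral_nonneg fun _ => sq_nonneg _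

theorem nm_zero (A : Ay v) (h : nm v = 0) : v.Φ = 0 := by
  have := openPos e.D.F.toPre
  funext y
  simpa using congrFun (((A.sΦ.continuous.norm.pow 2).ae_eq_iff_eq _ continuous_zero).1
    ((integral_eq_zero_iff_of_nonneg (fun _ => sq_nonneg _) (i_nm A)).1 h)) y

theorem ay_mk (A : Ay θ) (B : Ay v) : Ay (⟨θ.a, v.Φ⟩ : e.YC) := ⟨A.sa, B.sΦ, A.pa, B.pΦ⟩

variable (he : e.OK)
include he

theorem gn_nonneg (v : e.YC) : 0 ≤ gn v := integral_nonneg fun _ => add_nonneg (mul_nonneg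
  zero_le_two (sum_nonneg fun _ _ => mul_self_nonneg _)) (mul_nonneg he.cyl.w real_inner_self_nonneg)

theorem dr_eq (A : Ay v) (y : e.Y.M) : dr v y = Dl42.GP v y := sub_left_injective (gr_Φ he A y)

theorem sm_dr (A : Ay v) : Sm e.Y.I (dr v) := fun y => (SA.app (sm_slice_fst (he.cyl.cc.sρ none) 0 y)
  (sm_slice_fst (Mp86.En.sm_eD he.cyl A.adm) 0 y)).neg

theorem dr_ay (hv : e.cyl.Adm (fz v)) (hg : Gau e.Y.I g) (y : e.Y.M) :
    dr (ay g v) y = cs e.m.J (g y) (dr v y) := by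
  have h : dr (ay g v) y - e.b (nm (ay g v)) • cs e.m.J (g y) (v.Φ y) =
    cs e.m.J (g y) (dr v y - e.b (nm v) • v.Φ y) := (gr_ay he hv hg).2 y
  simpa only [Pb50.Eqv.nm he (eqv_ay hg v), ← Pb50.cB_apply, map_sub, map_smul, sub_left_inj] using h

theorem spec_eqv (h : Eqv v v') : spec v' ⊆ spec v := by
  rintro l ⟨φ, h0, h1, h2⟩
  obtain ⟨g, hg, h⟩ := h
  obtain rfl := eq_ay h
  have s := gau_star hg
  have e1 : ay (fun y => star (g y)) ⟨(ay g v).a, φ⟩ = ⟨v.a, fun y => cs e.m.J (star (g y)) (φ y)⟩ :=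
    En3.YC.ext (funext₂ fun k y => ((ay_a s.1 _ k y).trans (ay_a s.1 (ay g v) k y).symm).trans
      (congrArg (·.a k y) (ay_star he hg v))) rfl
  refine ⟨fun y => cs e.m.J (star (g y)) (φ y), fun k => h0 (funext fun y => norm_eq_zero.1
    ((norm_ay he s ⟨(ay g v).a, φ⟩ y).symm.trans (norm_eq_zero.2 (congrFun k y)))),
    e1 ▸ adm_ay he h1 s, fun y => ?_⟩
  rw [← e1, dr_ay he h1 s, h2, ← Pb50.cB_apply, map_smul]
  rfl

omit he in
theorem mo_red {M : (lf e).Gen} (hM : Mo M) {θ : (lf e).YC} (h : Red θ) : ∃ j, Eqv (M.θ j) θ := by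
  obtain ⟨i | j, g, hg, k⟩ := hM.all θ h.1
  · obtain ⟨y, hy⟩ := hM.irr i
    obtain rfl := eq_ay k
    exact (hy (norm_eq_zero.1 ((norm_ay hM.ok hg _ y).symm.trans
      (norm_eq_zero.2 (congrFun h.2 y))))).elim
  · exact ⟨j, g, hg, k⟩

theorem fq_le : ∃ T ≥ (0 : ℝ), ∀ θ v : e.YC, Ay θ → Ay v → fq 0 (⟨θ.a, v.Φ⟩ : e.YC) ≤
    2 * fq 0 v + T * ∑ k, ∫ y, ‖(v.a k - θ.a k) y • v.Φ y‖ ^ 2 ∂e.D.F.μ := by
  obtain ⟨T, T0, hT⟩ := Cyl58.sup_of (u := fun y k => e.m.J * τ e k y) (continuous_pi fun k =>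
    continuous_const.mul (ContMDiff.continuous ((sy he).sm k)))
  have hT' : ∀ k y, ‖e.m.J * τ e k y‖ ≤ T := fun k y =>
    (norm_le_pi_norm (fun k => e.m.J * τ e k y) k).trans (hT y)
  refine ⟨2 * (Fintype.card κ * T ^ 2), by positivity, fun θ v A V => ?_⟩
  have U := ay_mk A V
  have i1 : ∀ {v : e.YC}, Ay v → Integrable (fun y => ‖dr v y - (0 : ℝ) • v.Φ y‖ ^ 2) e.D.F.μ :=
    fun V => Mp86.En.itg (by have := (sm_dr he V).continuous; have := V.sΦ.continuous; fun_prop)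
  have i2 : ∀ k, Integrable (fun y => ‖(v.a k - θ.a k) y • v.Φ y‖ ^ 2) e.D.F.μ := fun k =>
    Mp86.En.itg ((((V.sa k).sub (A.sa k)).continuous.smul V.sΦ.continuous).norm.pow 2)
  have i3 := (integrable_finsetSum univ fun k _ => i2 k).const_mul (2 * (Fintype.card κ * T ^ 2))
  rw [← integral_finsetSum _ fun k _ => i2 k, ← integral_const_mul, fq, fq, ← integral_const_mul,
    ← integral_add ((i1 V).const_mul 2) i3]
  refine integral_mono (i1 U) (((i1 V).const_mul 2).add i3) fun y => ?_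
  have k1 : dr (⟨θ.a, v.Φ⟩ : e.YC) y =
      dr v y + ∑ k, (e.m.J * τ e k y) ((v.a k y - θ.a k y) • v.Φ y) := by
    simp only [dr_eq he U, dr_eq he V, Dl42.GP, sub_smul, map_sub, map_smul, sum_sub_distrib,
      mul_apply_eq_comp]
    abel
  have k2 := pow_le_pow_left₀ (norm_nonneg _) ((norm_sum_le _ _).trans (sum_le_sum
    fun k (_ : k ∈ univ) => (e.m.J * τ e k y).le_of_opNorm_le (hT' k y)
      ((v.a k y - θ.a k y) • v.Φ y))) 2
  rw [← mul_sum, mul_pow] at k2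
  have k3 := k2.trans (mul_le_mul_of_nonneg_left sq_sum_le_card_mul_sum_sq (sq_nonneg T))
  simp only [zero_smul, sub_zero, k1, Pi.sub_apply, card_univ] at k3 ⊢
  generalize ∑ k, (e.m.J * τ e k y) _ = z at k3 ⊢
  have k4 := pow_le_pow_left₀ (norm_nonneg _) (norm_add_le (dr v y) z) 2
  linarith [sq_nonneg (‖dr v y‖ - ‖z‖)]

omit he in
theorem mrs_alg {d T K : ℝ} (hd : 0 < d) (hT : 0 ≤ T) : ∃ ε > 0, ∀ (n x f : ℝ) (g I : κ → ℝ),
    0 ≤ x → d ^ 2 * n ≤ x → (∀ k, 0 ≤ g k) → ∑ k, g k ≤ ε → x ≤ 2 * f + T * ∑ k, I k →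
      (∀ k, I k ≤ K * g k ^ 2 * (√n * (√n + √x))) → n ≤ 4 * d⁻¹ ^ 2 * f := by
  have N0 : 0 < 2 * (T * (|K| * (d⁻¹ ^ 2 + d⁻¹)) + 1) := by positivity
  have p0 := lt_min one_pos (inv_pos.2 N0)
  have p1 := min_le_left 1 (2 * (T * (|K| * (d⁻¹ ^ 2 + d⁻¹)) + 1))⁻¹
  have p2 := (le_inv_mul_iff₀ N0).1 ((min_le_right 1 _).trans_eq (mul_one _).symm)
  refine ⟨_, p0, fun n x f g I x0 h1 g0 hv h3 h2 => ?_⟩
  generalize min 1 (2 * (T * (|K| * (d⁻¹ ^ 2 + d⁻¹)) + 1))⁻¹ = ε at p0 p1 p2 hv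
  have h4 : √n ≤ d⁻¹ * √x := by
    rw [le_inv_mul_iff₀ hd, ← Real.sqrt_sq hd.le, ← Real.sqrt_mul (sq_nonneg d)]
    exact Real.sqrt_le_sqrt h1
  have h5 : √n * (√n + √x) ≤ (d⁻¹ ^ 2 + d⁻¹) * x :=
    (mul_le_mul h4 (add_le_add_left h4 _) (by positivity) (by positivity)).trans_eq (by
      linear_combination (d⁻¹ ^ 2 + d⁻¹) * Real.sq_sqrt x0)
  have h6 : ∑ k, g k ^ 2 ≤ ε := (sum_sq_le_sq_sum_of_nonneg fun k _ => g0 k).trans
    ((pow_le_pow_left₀ (sum_nonneg fun k _ => g0 k) hv 2).trans (by nlinarith))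
  have h7 := sum_le_sum fun k (_ : k ∈ univ) => (h2 k).trans (mul_le_mul (mul_le_mul_of_nonneg_right
    (le_abs_self K) (sq_nonneg _)) h5 (by positivity) (by positivity))
  rw [← sum_mul, ← mul_sum] at h7
  have h8 := mul_le_mul_of_nonneg_left (h7.trans (mul_le_mul_of_nonneg_right
    (mul_le_mul_of_nonneg_left h6 (abs_nonneg K)) (by positivity))) hT
  rw [mul_comm 4, mul_assoc, inv_pow, le_inv_mul_iff₀ (by positivity)]
  linarith [mul_le_mul_of_nonneg_right p2 x0, mul_nonneg p0.le x0]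

/-- near a connection without harmonic spinors -/
theorem morse_loc (hG : GapStmt κ lam ν) (hM : MulStmt κ lam ν) (A : Ay θ) (h0 : 0 ∉ spec θ) :
    ∃ ε > 0, ∃ K, ∀ v : e.YC, Ay v → ∑ k, e.D.F.nrm 1 (v.a k - θ.a k) ≤ ε → nm v ≤ K * fq 0 v := by
  obtain ⟨hf, -, hg⟩ := hG e he θ A.adm
  obtain ⟨δ, d0, d1⟩ := (hf 1).isCompact.exists_forall_le' (f := fun l => |0 - l|) (by fun_prop)
    fun l hl => abs_pos.2 fun k => h0 (sub_eq_zero.1 k ▸ hl.1)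
  have d2 := lt_min d0 one_pos
  have d3 : ∀ l ∈ spec θ, min δ 1 ≤ |0 - l| := fun l hl => (em (l ∈ Set.Icc (-1 : ℝ) 1)).elim
    (fun h => (min_le_left _ _).trans (d1 l ⟨hl, h⟩)) fun h => (min_le_right _ _).trans
      (le_of_not_ge fun k => h (by rwa [zero_sub, abs_neg, abs_le] at k))
  obtain ⟨B, -, hB⟩ := Cyl58.sup_of (Mp86.En.cs0 (Mp86.En.sm_fc' he.cyl A.adm))
  obtain ⟨K, hK⟩ := hM e he B
  obtain ⟨T, T0, hT⟩ := fq_le he
  obtain ⟨ε, ε0, h⟩ := mrs_alg (κ := κ) (K := K) d2 T0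
  exact ⟨ε, ε0, _, fun v V hv => h _ _ _ _ _ (integral_nonneg fun _ => sq_nonneg _)
    (hg 0 _ v.Φ (ay_mk A V).adm d2.le d3) (fun _ => nrm_nonneg _ _) hv (hT θ v A V)
      fun k => hK ⟨θ.a, v.Φ⟩ (ay_mk A V).adm hB _ ((V.sa k).sub (A.sa k))⟩

theorem ps_seq (hw : 0 < e.w) {C : ℝ} {v : ℕ → e.YC}
    (h : ∀ n, e.cyl.Adm (fz (v n)) ∧ ∀ y, ‖(v n).Φ y‖ ≤ C) (k : ∀ n : ℕ, n * gn (v n) < 1) :
    ∃ (v₀ : e.YC) (v' : ℕ → e.YC), Crit v₀ ∧ (∀ n, Eqv (v n) (v' n)) ∧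
      Tendsto (fun n => En3.dist 1 (v' n) v₀) (hyperfilter ℕ) (𝓝 0) :=
  let ⟨v₀, v', h1, h2, h3, _⟩ := Cyl58.psyStmt.ps e he hw C ℕ (hyperfilter ℕ) v h
    ((squeeze_zero' (.of_forall fun _ => gn_nonneg he _) ((eventually_gt_atTop 0).mono fun n hn =>
      ((le_inv_mul_iff₀ (Nat.cast_pos.2 hn)).2 (k n).le).trans_eq (mul_one _))
      tendsto_inv_atTop_nhds_zero_nat).mono_left Nat.hyperfilter_le_atTop)
  ⟨v₀, v', h1, h2, h3⟩

omit he in
/-- **EN-MORSE** -/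
theorem morseStmt (hG : GapStmt κ lam ν) (hM : MulStmt κ lam ν) : MorseStmt κ lam ν := by
  intro e u ⟨he, _, hk⟩ C
  have H := ok_lf he
  by_contra! h
  by_cases hd : Dead e
  · choose v h1 h2 h3 h4 using fun n : ℕ => h 1 one_pos n
    obtain ⟨v₀, -, k, -⟩ := ps_seq H two_pos (fun n => ⟨h1 n, h2 n⟩) fun n =>
      lt_of_not_ge fun k => (h4 n ((h3 n).trans k)).2.not_ge k
    exact hd.2.2.2 v₀ k
  obtain ⟨M, hM'⟩ : ∃ M : (lf e).Gen, Mo M :=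
    hk.elim (fun ⟨M, h, _⟩ => ⟨M, h⟩) fun k => (k.resolve_right hd).imp fun _ h => h.1
  choose v h1 h2 h3 h4 using fun n : ℕ => h _ (Nat.one_div_pos_of_nat (n := n)) n
  have h5 : ∀ n : ℕ, n * gn (v n) < nm (v n) := fun n => lt_of_not_ge fun k => hd (h4 n k).1
  obtain ⟨v₀, v', k1, k2, k3⟩ := ps_seq H two_pos (fun n => ⟨h1 n, h2 n⟩) fun n =>
    (h5 n).trans_le ((h3 n).trans (div_le_one_of_le₀ (by simp) (by positivity)))
  have A := ay_of k1.1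
  have B := fun n => ay_of (Pb50.Eqv.adm H (h1 n) (k2 n))
  have d1 : ∀ n, ∑ k, e.D.F.nrm 1 ((v' n).a k - v₀.a k) ≤ En3.dist 1 (v' n) v₀ := fun n =>
    le_add_of_nonneg_right (nrm_nonneg _ _)
  have d2 : ∀ n : ℕ, √(nm v₀) ≤ √(1 / (n + 1)) + En3.dist 1 (v' n) v₀ := fun n => by
    have := Rdc90.nadd (F := e.D.F.toPre) (k := 0) (B n).sΦ ((B n).sΦ.sub A.sΦ).neg
    simp only [neg_sub, add_sub_cancel] at this
    refine (nrm_eq 0 v₀.Φ).ge.trans (this.trans (add_le_add ((nrm_eq _ _).trans_le (Real.sqrt_le_sqrt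
      ((Pb50.Eqv.nm H (k2 n)).trans_le (h3 n)))) (le_add_of_nonneg_of_le
        (sum_nonneg fun _ _ => nrm_nonneg _ _) (le_trans (le_of_eq ?_) (nrm_mono zero_le_one _)))))
    simp only [nrm_eq, N2, n2, Pi.sub_apply, norm_sub_rev (v₀.Φ _)]
  have d3 := ge_of_tendsto' ((tendsto_one_div_add_atTop_nhds_zero_nat.sqrt.mono_left
    Nat.hyperfilter_le_atTop).add k3) d2
  rw [Real.sqrt_zero, add_zero, ← not_lt, Real.sqrt_pos, not_lt] at d3
  obtain ⟨j, hj⟩ := mo_red hM' ⟨k1, nm_zero A (le_antisymm d3 (nm_nonneg _))⟩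
  obtain ⟨ε, ε0, K, hK⟩ := morse_loc H hG hM A fun k => hM'.z j (spec_eqv H hj k)
  obtain ⟨n, n1, n2⟩ := ((k3.eventually (ge_mem_nhds ε0)).and (Nat.hyperfilter_le_atTop
    (tendsto_natCast_atTop_atTop.eventually_ge_atTop |K|))).exists
  have f : fq 0 (v' n) ≤ gn (v' n) := integral_mono_of_nonneg (.of_forall fun _ => sq_nonneg _)
    (Wp42.i_gn H (B n).adm) (.of_forall fun y => by
      have := sum_nonneg fun k (_ : k ∈ univ) => mul_self_nonneg ((gr (v' n)).a k y)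
      change ‖(gr (v' n)).Φ y‖ ^ 2 ≤ 2 * _ + 2 * _
      rw [real_inner_self_eq_norm_sq]
      linarith [sq_nonneg ‖(gr (v' n)).Φ y‖])
  have := (hK _ (B n) ((d1 n).trans n1)).trans (mul_le_mul ((le_abs_self K).trans n2) f
    (integral_nonneg fun _ => sq_nonneg _) n.cast_nonneg)
  rw [Pb50.Eqv.nm H (k2 n), Pb50.Eqv.gn H (h1 n) (k2 n)] at this
  exact (h5 n).not_ge this

end Crest.Agent.X212.Es42
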