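import Crest.Agent.X212.Es42.Mrs
import Crest.Agent.X212.Wp42.Flux

/-!
# Row 212, EN-SLC (helper42): reducible configurations
-/

set_option autoImplicit false
set_option linter.unusedSectionVars false
noncomputable section
open scoped Manifold ContDiff Topology InnerProductSpace
open Finset Filter MeasureTheory

namespace Crest.Agent.X212.Es42
open An Sob92 Wz78 Cyf70 End23
open Dl42 hiding dl
open Dec47 (ay adm_ay gr_ay ay_Φ ay_a eqv_ay)
open Sw (En3 Gau Bg F2)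
open Sw.En3 (sl fz gr nm gn hol Crit Eqv)
open Wp42 (cv norm_cv sm_ga)

variable {κ lam ν : Type} [Fintype κ] [Fintype lam] [Fintype ν] [DecidableEq ν]
  {e : En3 κ lam ν} {v u θ : e.YC} {a b η : κ → e.Y.M → ℝ} {χ : e.Y.M → ℝ}

variable (e) in
/-- the pairing of one-forms -/
def pr (a b : κ → e.Y.M → ℝ) : ℝ := ∫ y, ∑ k, a k y * b k y ∂e.D.F.μ

theorem i_pr (ha : ∀ k, Sm e.Y.I (a k)) (hb : ∀ k, Sm e.Y.I (b k)) :
    Integrable (fun y => ∑ k, a k y * b k y) e.D.F.μ :=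
  ii _ fun y => SA.sum _ fun k _ => SA.mul (ha k y) (hb k y)

theorem pr_nonneg (a : κ → e.Y.M → ℝ) : 0 ≤ pr e a a :=
  integral_nonneg fun _ => sum_nonneg fun _ _ => mul_self_nonneg _

theorem pr_sq (ha : ∀ k, Sm e.Y.I (a k)) (hb : ∀ k, Sm e.Y.I (b k)) :
    pr e a b ^ 2 ≤ pr e a a * pr e b b := by
  have := discrim_le_zero (a := pr e a a) (b := 2 * pr e a b) (c := pr e b b) fun t => by
    have i1 := (i_pr ha ha).const_mul (t * t)
    have i2 := (i_pr ha hb).const_mul (2 * t)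
    rw [mul_comm (pr e a a), mul_right_comm 2, pr, pr, pr, ← integral_const_mul, ← integral_const_mul,
      ← integral_add i1 i2]
    refine le_trans (integral_nonneg fun y => ?_) (integral_add (i1.add i2) (i_pr hb hb)).le
    simp only [Pi.add_apply, mul_sum, ← sum_add_distrib]
    exact sum_nonneg fun k _ => (sq_nonneg (t * a k y + b k y)).trans_eq (by ring)
  rw [discrim] at this
  linarith

theorem pr_le (ha : ∀ k, Sm e.Y.I (a k)) : pr e a a ≤ n1 e 1 a ^ 2 := by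
  refine le_trans ?_ (sum_sq_le_sq_sum_of_nonneg fun _ _ => nrm_nonneg _ _)
  rw [pr, integral_finsetSum _ fun k _ => ii _ fun y => SA.mul (ha k y) (ha k y)]
  refine sum_le_sum fun k _ => le_trans (le_of_eq ?_)
    (pow_le_pow_left₀ (nrm_nonneg 0 _) (nrm_mono zero_le_one _) 2)
  simp only [nrm_sq, N2, n2, Real.norm_eq_abs, sq_abs, ← sq]

theorem ay0 (s : ∀ k, Sm e.Y.I (a k)) (p : ∀ k y, ∑ j, e.D.F.P k j y * a j y = a k y) :
    Ay (⟨a, 0⟩ : e.YC) := ⟨s, contMDiff_const, p, fun _ => map_zero _⟩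

theorem vr_Φ (h : v.Φ = 0) (r : ℝ) : (v.vr ⟨a, 0⟩ r).Φ = 0 := funext fun y => by simp [En3.YC.vr, h]

theorem grΦ_r (h : v.Φ = 0) (y : e.Y.M) : (gr v).Φ y = 0 := by
  simp [gr, Bg.eD, dir, nab, fz, dv_const, h]

theorem gn_r (h : v.Φ = 0) : gn v = 2 * pr e (gr v).a (gr v).a := by
  simp only [gn, En3.ip, grΦ_r h, inner_zero_left, mul_zero, add_zero, integral_const_mul, pr]

theorem sd_clo (h : e.Clo η) (k : κ) (y : e.Y.M) : sd e η k y = 0 :=
  sum_eq_zero fun i _ => sum_eq_zero fun j _ => mul_eq_zero_of_right _ (sub_eq_zero.2 (h.cl i j y))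

theorem hol_eq (v : e.YC) : hol v = 4 * pr e (fun k y => e.ζ y (none, some k)) v.a :=
  integral_const_mul _ _

variable (he : e.OK)
include he

theorem hol_vr (A : Ay v) (U : Ay u) (r : ℝ) : hol (v.vr u r) = hol v + r * hol u := by
  have z := fun k => sm_ζ he (none, some k)
  simp only [hol_eq, pr, En3.YC.vr, mul_add, mul_left_comm _ r, sum_add_distrib, ← mul_sum,
    integral_add (i_pr z A.sa) ((i_pr z U.sa).const_mul r), integral_const_mul]

theorem hol_D (hχ : Sm e.Y.I χ) : hol (⟨d0 e χ, 0⟩ : e.YC) = 0 :=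
  (hol_eq _).trans (mul_eq_zero_of_right _ (he.clζ χ hχ))

omit he in
theorem ay_D (hχ : Sm e.Y.I χ) : Ay (⟨d0 e χ, 0⟩ : e.YC) :=
  ay0 (e.D.F.sm_D hχ) fun k y => (frm _).projD k χ y

variable (h0 : e.om = 0)
include h0

theorem gr_r (A : Ay v) (h : v.Φ = 0) (k : κ) (y : e.Y.M) : (gr v).a k y =
    (st e (f0 e) k y + sd e v.a k y) / 2 + 2 * deriv e.f (hol v) * e.ζ y (none, some k) := by
  simp only [gr_a he A, Ga, g0, qq, h, h0, Pi.zero_apply, inner_zero_right, PiLp.zero_apply]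
  ring

theorem fc_sq (A : Ay v) (h : v.Φ = 0) (y : e.Y.M) :
    ‖e.cyl.fc (fz v) (y, 0)‖ ^ 2 = 2 * ‖cv v y - deriv e.f (hol v) • e.ζ y‖ ^ 2 := by
  have e2 : e.cyl.kd (fz v) (y, 0) = 0 := by
    simp [Mp86.En.kd_eq, Fintype.sum_prod_type, Fintype.sum_option, Mp86.En.fc_none, Base.st,
      Mp86.En.cyl_o, Mp86.En.o_some he]
  have e1 : e.cyl.qd (y, 0) ((fz v).Φ (y, 0)) ((fz v).Φ (y, 0)) = 0 := by ext; simp [Bg.qd, fz, h]
  rw [Mp86.En.norm_fc he.cyl A.adm, e2, cv, Bg.eC, e1, Mp86.En.cyl_om, h0]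
  simp

theorem pair (hη : e.Clo η) (A : Ay v) (h : v.Φ = 0) (B : Ay θ)
    (hθ : ∀ k y, st e (f0 e) k y + sd e θ.a k y = 0) :
    (deriv e.f (hol v) * hol (⟨η, 0⟩ : e.YC)) ^ 2 ≤ 2 * pr e η η * gn v := by
  have h1 : pr e η (gr v).a = _ := (((nul_sd he A.sa hη.sm A.pa hη.pr).mul (-1 / 2)).add
    ((nul_sd he B.sa hη.sm B.pa hη.pr).mul (1 / 2))).eq ((i_pr (fun k => sm_ζ he (none, some k))
      hη.sm).const_mul (2 * deriv e.f (hol v))) fun y => by
      simp only [gr_r he h0 A h, eq_neg_of_add_eq_zero_left (hθ _ y), sd_clo hη, zero_mul,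
        sum_const_zero, zero_sub, mul_neg, mul_sum, ← sum_neg_distrib, ← sum_add_distrib]
      exact sum_congr rfl fun k _ => by ring
  have h2 := pr_sq hη.sm (sm_ga he A.adm)
  rw [h1, integral_const_mul] at h2
  rw [hol_eq ⟨η, 0⟩, gn_r h, pr]
  linarith

theorem red_of (A : Ay v) (h : v.Φ = 0) (h1 : ∀ k y, st e (f0 e) k y + sd e v.a k y = 0)
    (h2 : deriv e.f (hol v) = 0) : Red v :=
  ⟨⟨A.adm, fun k y => by simp [gr_r he h0 A h, h1, h2], grΦ_r h⟩, h⟩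

theorem flat_of (h : Red v) (h2 : deriv e.f (hol v) = 0) (k : κ) (y : e.Y.M) :
    st e (f0 e) k y + sd e v.a k y = 0 := by
  simpa [h2] using (gr_r he h0 (ay_of h.1.1) h.2 k y).symm.trans (h.1.2.1 k y)

omit h0 in
theorem sd_vr (A : Ay v) (hη : e.Clo η) (r : ℝ) (k : κ) (y : e.Y.M) :
    sd e (v.vr ⟨η, 0⟩ r).a k y = sd e v.a k y :=
  (sd_lin A.sa hη.sm r k y).trans (by rw [sd_clo hη, mul_zero, add_zero])

omit he h0 in
theorem mo_flat {M : (lf e).Gen} (hM : Mo M) (j : M.ρ) : Ay (M.θ j) ∧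
    ∀ k y, st (lf e) (f0 _) k y + sd _ (M.θ j).a k y = 0 :=
  ⟨ay_of (hM.crit (.inr j)).1, flat_of hM.ok hM.om ⟨hM.crit (.inr j), hM.red j⟩ (hM.fl j)⟩

omit he h0 in
/-- the zeros of the holonomy term on a circle of flat connections -/
theorem tor_zero {M : (lf e).Gen} (hM : Mo M) (hη : (lf e).Clo η)
    (hp : hol (⟨η, 0⟩ : (lf e).YC) ≠ 0) (j : M.ρ) (z : ℝ)
    (hz : deriv e.f (hol (M.θ j) + z * hol (⟨η, 0⟩ : (lf e).YC)) = 0) : ∃ c ≠ 0, ∀ᶠ r in 𝓝 z,
      deriv e.f (hol (M.θ j) + r * hol (⟨η, 0⟩ : (lf e).YC)) = c * (r - z) := by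
  have H := hM.ok
  have U := ay0 hη.sm hη.pr
  have F := fun j => fy_vr (mo_flat hM j).1 U
  have fl : ∀ j r k y, st (lf e) (f0 _) k y + sd _ ((M.θ j).vr ⟨η, 0⟩ r).a k y = 0 := fun j r k y =>
    sd_vr H (mo_flat hM j).1 hη r k y ▸ (mo_flat hM j).2 k y
  have hv := fun j => hol_vr H (mo_flat hM j).1 U
  obtain ⟨i, g, hg, k⟩ := mo_red hM (red_of H hM.om ((F j).ay z) (vr_Φ (hM.red j) z) (fl j z)
    (hv j z ▸ hz))
  obtain ⟨s, hs⟩ := hM.quad i
  have c : ∀ z, ∀ᶠ r in 𝓝 z, deriv e.f (hol (M.θ i) + (r - z) * hol (⟨η, 0⟩ : (lf e).YC)) =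
      s * hol (⟨η, 0⟩ : (lf e).YC) * (r - z) := fun z => ((Continuous.tendsto' (by fun_prop) z _
    (by simp) : Tendsto (fun r => hol (M.θ i) + (r - z) * hol (⟨η, 0⟩ : (lf e).YC)) _ _).eventually
      hs).mono fun r h => h.trans (by ring)
  refine ⟨_, mul_ne_zero (fun s0 => hp ?_) hp, (c z).mono fun r h => .trans ?_ h⟩
  · have k1 : ∀ k y, (fun r => (gr ((M.θ i).vr ⟨η, 0⟩ r)).a k y) =ᶠ[𝓝 0] fun _ => 0 := fun k y =>
      (c 0).mono fun r h => by
        rw [s0, sub_zero, zero_mul, zero_mul] at h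
        refine (gr_r H hM.om ((F i).ay r) (vr_Φ (hM.red i) r) k y).trans ?_
        rw [fl, hv, show deriv (lf e).f _ = 0 from h]
        simp
    obtain ⟨χ, h1, h2, -⟩ := hM.nd (.inr i) ⟨η, 0⟩ U.adm
      (fun k y => (hasDerivAt_const _ _).congr_of_eventuallyEq (k1 k y)) fun y =>
      (hasDerivAt_const _ _).congr_of_eventuallyEq (.of_forall fun r => grΦ_r (vr_Φ (hM.red i) r) y)
    rw [← hol_D H h1.neg]
    exact congrArg (fun a => hol (⟨a, 0⟩ : (lf e).YC)) (funext₂ fun k y =>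
      (h2 k y).trans (dv_neg _ _).symm)
  · have h1 := congrArg hol (eq_ay k)
    have h2 := H.per _ _ ((F i).ay (r - z)).adm (eqv_ay hg _)
    rw [hol_ay H (mo_flat hM i).1.adm hg, hv] at h1
    rw [hol_ay H ((F i).ay (r - z)).adm hg, hv] at h2
    exact (congrArg _ (by linarith)).trans h2

end Crest.Agent.X212.Es42
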