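import Crest.Agent.X212.Es42.Est
import Crest.Agent.X212.Win45.Slc

/-!
# Row 212, EN-SLC (helper42): slices with a small spinor
-/

set_option autoImplicit false
set_option linter.unusedSectionVars false
noncomputable section
open scoped Manifold ContDiff Topology InnerProductSpace
open Finset Filter MeasureTheory

namespace Crest.Agent.X212.Es42
open An Sob92 Wz78 Cyf70 End23
open Dl42 hiding dl
open Sw (En3 Gau Bg F2)
open Sw.En3 (sl fz gr nm gn hol Crit Eqv)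
open Wp42 (cv norm_cv sm_ga i_gn)

variable {κ lam ν : Type} [Fintype κ] [Fintype lam] [Fintype ν] [DecidableEq ν]
  {e : En3 κ lam ν} {v : e.YC}

theorem small {A ε : ℝ} (hA : 0 ≤ A) (hε : 0 < ε) : ∃ w₀ > 0, ∀ w ∈ Set.Ioc 0 w₀, w * A ≤ ε :=
  ⟨ε / (A + 1), by positivity, fun w hw => by
    linarith [(le_div_iff₀ (by positivity : 0 < A + 1)).1 hw.2, hw.1]⟩

theorem nm_tv (hw : 0 ≤ e.w) : nm (tv v) = e.w / 2 * nm v := by
  simp only [nm, tv, norm_smul, mul_pow, Real.norm_eq_abs, sq_abs, sq (dl e), dl_sq hw,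
    integral_const_mul]

variable (he : e.OK)
include he

theorem gn_tv (A : Ay v) {B : ℝ} (hB : ∀ r, e.b r ≤ B) : gn (tv v) ≤ 2 * gn v + 2 * e.w * B ^ 2 := by
  have w0 : 0 ≤ e.w := he.cyl.w
  have i1 := (i_gn he A.adm).const_mul 2
  have i2 := (i_nm A).const_mul (2 * e.w * e.b (nm v) ^ 2)
  refine ((integral_mono (i_gn (ok_lf he) (ay_tv A).adm) (i1.add i2) fun y => ?_).trans_eq
    ((integral_add i1 i2).trans (congrArg₂ _ (integral_const_mul _ _) (integral_const_mul _ _)))).trans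
    (add_le_add_right ?_ _)
  · have n1 := sum_nonneg fun k (_ : k ∈ univ) => mul_self_nonneg ((gr v).a k y)
    have n2 := mul_le_mul_of_nonneg_left (pow_le_pow_left₀ (norm_nonneg _)
      (norm_add_le ((gr v).Φ y) (e.b (nm v) • v.Φ y)) 2) w0
    have n3 := mul_nonneg w0 (sq_nonneg (‖(gr v).Φ y‖ - ‖e.b (nm v) • v.Φ y‖))
    have n4 : e.w * ‖e.b (nm v) • v.Φ y‖ ^ 2 = e.w * (e.b (nm v) ^ 2 * ‖v.Φ y‖ ^ 2) := by
      rw [norm_smul, mul_pow, Real.norm_eq_abs, sq_abs]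
    simp only [ipd, gr_tv_a he A, gr_tv_Φ he A, real_inner_self_eq_norm_sq, norm_smul (dl e), mul_pow,
      Real.norm_eq_abs, sq_abs, sq (dl e), dl_sq w0, Pi.add_apply]
    linarith
  · rw [mul_assoc]
    refine mul_le_mul_of_nonneg_left ?_ (by positivity)
    rcases le_total (nm v) 1 with h | h
    · exact (mul_le_of_le_one_right (sq_nonneg _) h).trans (pow_le_pow_left₀ (he.b0 _) (hB _) 2)
    · rw [he.b1 _ h, zero_pow two_ne_zero, zero_mul]; positivity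

theorem gn_r0 (A : Ay v) {C : ℝ} (hC : ∀ y, ‖v.Φ y‖ ≤ C) :
    gn (⟨v.a, 0⟩ : e.YC) ≤ 2 * gn v + e.w ^ 2 * C ^ 2 / 4 * nm v := by
  have i1 := (i_gn he A.adm).const_mul 2
  have i2 := (i_nm A).const_mul (e.w ^ 2 * C ^ 2 / 4)
  refine (integral_mono (i_gn he (ay0 A.sa A.pa).adm) (i1.add i2) fun y => ?_).trans_eq
    ((integral_add i1 i2).trans (congrArg₂ _ (integral_const_mul _ _) (integral_const_mul _ _)))
  have p := A.pΦ y
  have e1 : cv (⟨v.a, 0⟩ : e.YC) y = cv v y + e.w • e.cyl.qd (y, 0) (v.Φ y) (v.Φ y) := by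
    have : e.cyl.qd (y, 0) 0 0 = 0 := by ext; simp [Bg.qd]
    change e.cyl.p2 (y, 0) (e.cyl.fc (fz v) (y, 0) - e.w • e.cyl.qd (y, 0) 0 0) - e.om y +
      deriv e.f (hol v) • e.ζ y = e.cyl.p2 (y, 0) (e.cyl.fc (fz v) (y, 0) -
        e.w • e.cyl.qd (y, 0) (v.Φ y) (v.Φ y)) - e.om y + deriv e.f (hol v) • e.ζ y + _
    rw [this, smul_zero, sub_zero, map_sub, map_smul, Sw88.p2_qd_self he.cyl p]
    abel
  have n1 := pow_le_pow_left₀ (norm_nonneg _) (e1 ▸ norm_add_le (cv v y) _) 2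
  rw [norm_smul, Sw88.norm_qd he.cyl p, Real.norm_of_nonneg (show 0 ≤ e.w from he.cyl.w)] at n1
  have n2 := mul_le_mul_of_nonneg_left (pow_le_pow_left₀ (norm_nonneg _) (hC y) 2)
    (mul_nonneg (sq_nonneg e.w) (sq_nonneg ‖v.Φ y‖))
  have n3 : 0 ≤ e.w * ⟪(gr v).Φ y, (gr v).Φ y⟫_ℝ := mul_nonneg he.cyl.w real_inner_self_nonneg
  simp only [ipd, norm_cv he, grΦ_r (v := ⟨v.a, 0⟩) rfl, inner_zero_left, Pi.add_apply]
  linarith [sq_nonneg (‖cv v y‖ - e.w * (‖v.Φ y‖ ^ 2 / 4))]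

theorem fc_le {c : e.ZC} {J : Set ℝ} (hJ : IsOpen J) (h : e.cyl.AdmOn c (Set.univ ×ˢ J)) {t : ℝ}
    (ht : t ∈ J) (y : e.Y.M) : ‖e.cyl.fc c (y, t)‖ ^ 2 ≤ ‖e.cyl.fc (fz (sl c t)) (y, 0)‖ ^ 2 +
      16 * ‖e.cyl.eC c (y, t) + deriv e.f (hol (sl c t)) • e.ζ y‖ ^ 2 +
        4 * ∑ k, (gr (sl c t)).a k y * (gr (sl c t)).a k y := by
  have s := fun i => Win45.at_of hJ (h.sa i) ht y
  have z : ∀ i j, (i = none ∨ j = none) → e.cyl.fc c (y, t) (i, j) =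
      e.D.Z.D i (c.a j) (y, t) - e.D.Z.D j (c.a i) (y, t) := fun i j h => by
    have h1 : curv (IC e.Y.I) e.D.Z.e e.D.Z.c e.cyl.A i j (y, t) = 0 := by
      rw [curv_cyl he]; rcases h with rfl | rfl; exacts [rfl, by cases i <;> rfl]
    have h2 : ∀ l, e.D.Z.c i j l (y, t) = 0 := fun l => by
      rcases h with rfl | rfl; exacts [rfl, by cases i <;> rfl]
    rw [fc_eq he.cyl s]
    change 1 / 8 * ⟪_, hsL (curv (IC e.Y.I) e.D.Z.e e.D.Z.c e.cyl.A i j (y, t))⟫_ℝ +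
      (_ - ∑ l, e.D.Z.c i j l (y, t) • _) = _
    simp only [h1, h2, map_zero, inner_zero_right, mul_zero, zero_add, zero_smul, sum_const_zero,
      sub_zero]
    rfl
  set τ := e.cyl.eC c (y, t) + deriv e.f (hol (sl c t)) • e.ζ y
  have h1 : ∀ k, e.cyl.fc c (y, t) (none, some k) = 2 * τ (none, some k) - (gr (sl c t)).a k y :=
    fun k => by
      have := Win45.flow_C he hJ h ht y k
      rw [z _ _ (.inl rfl)]
      simp only [τ, gr, PiLp.add_apply, this]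
      change _ = 2 * (_ + (e.D.Z.D _ _ _ - e.D.Z.D _ _ _) / 2 + _) - _
      ring
  have h2 : ∀ k, e.cyl.fc c (y, t) (some k, none) = -e.cyl.fc c (y, t) (none, some k) := fun k => by
    rw [z _ _ (.inl rfl), z _ _ (.inr rfl), neg_sub]
  have h3 := sum_le_sum fun k (_ : k ∈ univ) => show (2 * τ (none, some k) - (gr (sl c t)).a k y) ^ 2 ≤
    8 * τ (none, some k) ^ 2 + 2 * ((gr (sl c t)).a k y * (gr (sl c t)).a k y) by
      linarith [sq_nonneg (2 * τ (none, some k) + (gr (sl c t)).a k y)]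
  rw [sum_add_distrib, ← mul_sum, ← mul_sum] at h3
  have h4 := Mp86.En.sum_sq_le τ
  generalize ‖τ‖ = n at h4 ⊢
  simp only [PiLp.norm_sq_eq_of_L2, Fintype.sum_prod_type, Fintype.sum_option, h2, h1,
    Mp86.En.fc_sl he s, Mp86.En.fc_none, z none none (.inl rfl), sub_self, Real.norm_eq_abs, sq_abs,
    neg_sq, sum_add_distrib]
  simp
  linarith

omit he in
/-- **EN-SLC** -/
theorem slcStmt (hG : GapStmt κ lam ν) (hM : MulStmt κ lam ν) : SlcStmt κ lam ν := by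
  intro e u hk H
  have b3 : ∀ {c : ℝ}, 0 ≤ c → ∀ r, c * prf r ≤ c * 3 := fun hc r =>
    mul_le_mul_of_nonneg_left (prf_mem r).2 hc
  have key : ∀ C, ∃ ρ > 0, ∃ K ≥ (0 : ℝ), ∀ c ≥ 0, ∀ w > 0, ∀ S ψ, (lv e c w S ψ).OK →
      ∀ v : (lv e c w S ψ).YC, Ay v → (∀ y, dl (lv e c w S ψ) * ‖v.Φ y‖ ≤ C) → w * nm v ≤ ρ →
        gn (⟨v.a, 0⟩ : (lf e).YC) ≤ K * gn v + w * (K * (9 * c ^ 2)) ∧
        (Dead e → 1 ≤ K * gn v + w * (K * (9 * c ^ 2))) := fun C => by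
    obtain ⟨ρ, ρ0, K, h⟩ := morseStmt hG hM e u hk C
    refine ⟨ρ, ρ0, 2 * (2 + C ^ 2 * |K| + |K|), by positivity, fun c hc w hw S ψ he v V h1 h2 => ?_⟩
    have h3 : ∀ y, ‖(tv v).Φ y‖ ≤ C := fun y => (norm_smul _ _).trans_le
      ((congrArg (· * _) (Real.norm_of_nonneg (Real.sqrt_nonneg _))).trans_le (h1 y))
    obtain ⟨h4, h5⟩ := h (tv (e := lv e c w S ψ) v) (ay_tv V).adm h3 ((nm_tv (v := v) hw.le).trans_le
      (by linarith [mul_nonneg hw.le (nm_nonneg v)]))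
    have h6 := gn_tv he V (b3 hc)
    have h7 := gn_r0 (ok_lf he) (ay_tv V) h3
    have g0 := gn_nonneg (ok_lf he) (tv v)
    have h8 := mul_le_mul_of_nonneg_right (le_abs_self K) g0
    have h9 := mul_le_mul_of_nonneg_left (h4.trans h8) (sq_nonneg C)
    have k := mul_le_mul_of_nonneg_left h6 (show 0 ≤ 2 + C ^ 2 * |K| + |K| by positivity)
    have k1 := mul_nonneg (abs_nonneg K) g0
    exact ⟨h7.trans (by linarith), fun hd => ((h5 hd).trans h8).trans (by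
      linarith [mul_nonneg (sq_nonneg C) k1])⟩
  by_cases hd : Dead e
  · refine ⟨0, id, 1, ∅, (ay0 (a := 0) (fun _ => contMDiff_const) (by simp)).adm,
      ⟨contDiff_id, by simp, by simp⟩, by simp, fun C => ?_⟩
    obtain ⟨ρ, ρ0, K, K0, h⟩ := key C
    refine ⟨ρ, ρ0, 2 * K, by positivity, fun ε _ => ⟨1, one_pos, fun c hc => ?_⟩⟩
    obtain ⟨w₀, p, k⟩ := small (show 0 ≤ K * (9 * c ^ 2) by positivity) one_half_pos
    exact ⟨w₀, p, fun w hw S ψ he A I hI hA t ht h1 _ h2 _ => .inl (by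
      linarith [k w hw, (h c hc w hw.1 S ψ he _ (ay_of (Win45.adm_sl hI hA ht))
        (fun y => h1 (y, t) ⟨trivial, rfl⟩) h2).2 hd])⟩
  obtain ⟨M, hM', hc⟩ : ∃ M : (lf e).Gen, Mo M ∧ ((e.H1 ∧ e.f = 0) ∨ per e u ≠ 0) :=
    hk.2.2.elim (fun ⟨M, h, a, b, _⟩ => ⟨M, h, .inl ⟨a, b⟩⟩) fun k =>
      (k.resolve_right hd).imp fun _ h => ⟨h.1, .inr h.2.1⟩
  obtain ⟨j⟩ := hM'.ne
  obtain ⟨Z, r, r0, N, N0, h1, h2, h3⟩ := red_est hM' j H hk.2.1.1 hc
  obtain ⟨σ, K₀, h4, h5⟩ := exists_sg r0 h1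
  have B := fun i => (mo_flat hM' i).1
  refine ⟨(M.θ j).a, σ, K₀, ⋃ i, spec (M.θ i), (ay0 (e := e) (B j).sa (B j).pa).adm, h4, fun R => by
    rw [Set.iUnion_inter]
    exact Set.finite_iUnion fun i => (hG _ hM'.ok _ (B i).adm).1 R, fun C => ?_⟩
  obtain ⟨ρ, ρ0, K, K0, h⟩ := key C
  refine ⟨ρ, ρ0, 2 * (N * K) + 2 + 8 * (N * K) / r ^ 2, by positivity, fun ε ε0 => ?_⟩
  have : IsFiniteMeasure e.D.F.μ := ⟨isCompact_univ.measure_lt_top⟩
  have m0 := measureReal_nonneg (μ := e.D.F.μ) (s := Set.univ)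
  obtain ⟨η, η0, hη⟩ := small (show 0 ≤ 16 * e.D.F.μ.real Set.univ by positivity) (half_pos ε0)
  refine ⟨_, lt_min η0 one_pos, fun c hc => ?_⟩
  obtain ⟨w₀, p, k⟩ := small (show 0 ≤ N * (K * (9 * c ^ 2)) by positivity)
    (show 0 < min (ε / 4) (r ^ 2 / 8) by positivity)
  refine ⟨w₀, p, fun w hw S ψ he A I hI hA t ht k1 n0 k2 k3 => or_iff_not_imp_left.2 fun k4 => ?_⟩
  have V := ay_of (Win45.adm_sl hI hA ht)
  have k5 := mul_le_mul_of_nonneg_left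
    (h c hc w hw.1 S ψ he _ V (fun y => k1 (y, t) ⟨trivial, rfl⟩) k2).1 N0
  obtain ⟨⟨z, hz, k6⟩, k7⟩ := h3 ⟨(sl A t).a, 0⟩ (ay0 V.sa V.pa) rfl
  obtain ⟨k8, k9⟩ := le_min_iff.1 (k w hw)
  have g0 := gn_nonneg he (sl A t)
  have q0 := mul_nonneg (mul_nonneg N0 K0) g0
  have q1 : 8 * (N * K) / r ^ 2 * gn (sl A t) < 1 := by linarith [not_le.1 k4]
  rw [div_mul_eq_mul_div, div_lt_one (by positivity)] at q1
  obtain ⟨q2, q3⟩ := h5 z hz (H.s ((sl A t).a - (M.θ j).a))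
    (abs_lt_of_sq_lt_sq (k6.trans_lt (by linarith)) (by positivity))
  have R := h2 z hz _ (H.sm ((sl A t).a - (M.θ j).a) (ay0 (e := e) (ay_sub (ay0 (e := lf e) V.sa V.pa)
    (B j)).sa (ay_sub (ay0 (e := lf e) V.sa V.pa) (B j)).pa).adm)
  refine ⟨?_, q3, ⟨_, R, by simp only [End23.ht, q2]⟩, fun δ δ0 hδ => ?_⟩
  · have i1 := Mp86.En.itg ((Mp86.En.cs0 (Mp86.En.sm_fc' he.cyl V.adm)).norm.pow 2)
    have i2 := i1.add (integrable_const (16 * min η 1 ^ 2))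
    have i3 := (i_pr (sm_ga he V.adm) (sm_ga he V.adm)).const_mul 4
    have q4 : ∫ y, ‖e.cyl.fc A (y, t) - e.cyl.fc (fz (⟨(M.θ j).a, 0⟩ : e.YC)) (y, 0)‖ ^ 2 ∂e.D.F.μ ≤ _ :=
      (integral_mono_of_nonneg (.of_forall fun _ => sq_nonneg _) (i2.add i3) (.of_forall fun y => by
        rw [show e.cyl.fc (fz (⟨(M.θ j).a, 0⟩ : e.YC)) (y, 0) = 0 from mo_fc hM' j y, sub_zero]
        exact (fc_le he hI hA ht y).trans (add_le_add_left (add_le_add_right (mul_le_mul_of_nonneg_left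
          (pow_le_pow_left₀ (norm_nonneg _) (k3 y) 2) (by norm_num)) _) _))).trans_eq
        ((integral_add i2 i3).trans (congrArg₂ _ ((integral_add i1 (integrable_const _)).trans
          (congrArg _ (integral_const _))) (integral_const_mul _ _)))
    have q5 : 2 * ∫ y, ∑ k, (gr (sl A t)).a k y * (gr (sl A t)).a k y ∂e.D.F.μ ≤ gn (sl A t) :=
      (integral_const_mul _ _).ge.trans (integral_mono ((i_pr (sm_ga he V.adm)
        (sm_ga he V.adm)).const_mul 2) (i_gn he V.adm) fun y => le_add_of_nonneg_right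
          (mul_nonneg hw.1.le real_inner_self_nonneg))
    have q6 := hη _ ⟨lt_min η0 one_pos, min_le_left η 1⟩
    have q7 := mul_le_mul_of_nonneg_left (mul_le_of_le_one_right (lt_min η0 one_pos).le
      (min_le_right η 1)) m0
    have q8 : 0 ≤ 8 * (N * K) * gn (sl A t) / r ^ 2 := by positivity
    rw [kp, q2]
    refine (add_le_add (q4.trans (add_le_add (add_le_add_left k7 _) le_rfl)) k6).trans ?_
    rw [smul_eq_mul, add_mul, div_mul_eq_mul_div]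
    change _ + e.D.F.μ.real Set.univ * _ +
      4 * ∫ y, ∑ k, (gr (sl A t)).a k y * (gr (sl A t)).a k y ∂e.D.F.μ + _ ≤ _
    linarith
  · obtain ⟨i, hi⟩ := mo_red hM' R
    have T := ay_of R.1.1
    have := (hG _ hM'.ok _ R.1.1).2.2 (fN H (M.θ j).a σ (sl A t)) δ (sl A t).Φ
      (Ay.adm ⟨T.sa, V.sΦ, T.pa, V.pΦ⟩) δ0 fun l hl => hδ l (Set.mem_iUnion.2 ⟨i, spec_eqv hM'.ok hi hl⟩)
    refine Real.le_sqrt_of_sq_le ((le_div_iff₀ n0).2 ?_)
    simp only [End23.ht, q2]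
    exact this

end Crest.Agent.X212.Es42
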